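import Vale.Agent.P353.AN.TW.Stmt
import Vale.Agent.P353.Z.Loc
import Vale.Agent.P353.Z.U.Hes
import Vale.Agent.P353.Z.U.Coer
import Vale.Agent.P353.Z.U.A1
import Vale.Agent.P353.Z.U.A1a
import Vale.Agent.P353.Z.U.A1b
import Vale.Agent.P353.Z.U.FBmn
import Vale.Agent.P353.Z.U.FFten

/-! # P353, all `N`, TW2: the non commuting part of a shell -/

open MeasureTheory Filter Topology
open scoped ContDiff

namespace Vale.Agent.P353.Z.AT

variable {d : ℕ} {F : Type*} [NormedAddCommGroup F] [InnerProductSpace ℂ F]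

section pot

theorem nc442_sq (S : Setup d F) : U.SqStmt S := U.sq_stmt S

theorem nc442_a6 (S : Setup d F) : U.A6Stmt S :=
  U.a6 S (U.a7 S (U.a1 S (U.a1a S) (U.a1b S (U.fbmn S (U.f10 S)))))

theorem nc442_nonneg (S : Setup d F) (m : ℝ) (x : Cfg d) : 0 ≤ S.Vm m x := by
  rw [nc442_sq S m x]
  have h1 : 0 ≤ ∑ k, ∑ A, S.GG m k A x ^ 2 := by positivity
  have h2 : 0 ≤ ∑ i : Fin 9, ∑ A, (if i.val < 3 then 0 else x (i, A) ^ 2) :=
    Finset.sum_nonneg fun i _ => Finset.sum_nonneg fun A _ => by split_ifs <;> positivity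
  have h3 : 0 ≤ ∑ i : Fin 9, ∑ j : Fin 9, ∑ A,
      (if i.val < 3 ∧ j.val < 3 then 0 else S.FF A i j x ^ 2) :=
    Finset.sum_nonneg fun i _ => Finset.sum_nonneg fun j _ => Finset.sum_nonneg fun A _ => by
      split_ifs <;> positivity
  positivity

theorem nc442_xsum (x : Cfg d) : ∑ k : Fin 3, ∑ A, x (Setup.c3 k, A) ^ 2 ≤ ‖x‖ ^ 2 := by
  have h1 : ‖x‖ ^ 2 = ∑ i : Fin 9, ∑ A, x (i, A) ^ 2 := by
    rw [EuclideanSpace.real_norm_sq_eq, Fintype.sum_prod_type]
  rw [h1, U.hes_sum9 fun i => ∑ A, x (i, A) ^ 2]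
  have h2 : 0 ≤ ∑ i : Fin 9, (if i.val < 3 then 0 else ∑ A, x (i, A) ^ 2) :=
    Finset.sum_nonneg fun i _ => by split_ifs <;> positivity
  linarith

theorem nc442_lower (S : Setup d F) (m : ℝ) (x : Cfg d) :
    (1 / 2) * S.V x - 2 * m ^ 2 * ‖x‖ ^ 2 ≤ S.Vm m x := by
  have h0 : S.Vm 0 x = S.V x := by simp [Setup.Vm]
  rw [← h0, nc442_sq S m x, nc442_sq S 0 x]
  have h1 : ∀ k A, (1 / 2) * S.GG 0 k A x ^ 2 - 4 * m ^ 2 * x (Setup.c3 k, A) ^ 2 ≤
      S.GG m k A x ^ 2 := by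
    intro k A
    unfold Setup.GG
    nlinarith [sq_nonneg (S.FF A (Setup.c3 (k + 1)) (Setup.c3 (k + 2)) x +
      4 * m * x (Setup.c3 k, A))]
  have h2 : (1 / 2) * (∑ k, ∑ A, S.GG 0 k A x ^ 2) -
      4 * m ^ 2 * ∑ k : Fin 3, ∑ A, x (Setup.c3 k, A) ^ 2 ≤ ∑ k, ∑ A, S.GG m k A x ^ 2 := by
    simp only [Finset.mul_sum]
    rw [← Finset.sum_sub_distrib]
    refine Finset.sum_le_sum fun k _ => ?_
    rw [← Finset.sum_sub_distrib]
    exact Finset.sum_le_sum fun A _ => h1 k A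
  have h3 := mul_le_mul_of_nonneg_left (nc442_xsum x) (by positivity : 0 ≤ 4 * m ^ 2)
  have h4 : 0 ≤ ∑ i : Fin 9, ∑ A, (if i.val < 3 then 0 else x (i, A) ^ 2) :=
    Finset.sum_nonneg fun i _ => Finset.sum_nonneg fun A _ => by split_ifs <;> positivity
  have h5 : 0 ≤ ∑ i : Fin 9, ∑ j : Fin 9, ∑ A,
      (if i.val < 3 ∧ j.val < 3 then 0 else S.FF A i j x ^ 2) :=
    Finset.sum_nonneg fun i _ => Finset.sum_nonneg fun j _ => Finset.sum_nonneg fun A _ => by
      split_ifs <;> positivity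
  have h6 : 0 ≤ m ^ 2 / 2 * ∑ i : Fin 9, ∑ A, (if i.val < 3 then 0 else x (i, A) ^ 2) := by
    positivity
  nlinarith

end pot

section cut

/-- cutoff to a shell -/
structure NcCut (K s : ℝ) (χ : Cfg d → ℝ) : Prop where
  sm : ContDiff ℝ ∞ χ
  nn : ∀ x, 0 ≤ χ x
  le : ∀ x, χ x ≤ 1
  one : ∀ x, s ≤ ‖x‖ → ‖x‖ ≤ 2 * s → χ x = 1
  supp : ∀ x, χ x ≠ 0 → s / 2 < ‖x‖ ∧ ‖x‖ < 4 * s
  grad : ∀ j B x, |pdr j B χ x| ≤ K / s

theorem nc442_cut : ∃ K : ℝ, 0 ≤ K ∧ ∀ s : ℝ, 0 < s → ∃ χ : Cfg d → ℝ, NcCut K s χ := by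
  obtain ⟨K, hK, h⟩ := exists_cut (d := d)
  refine ⟨3 * K, by positivity, fun s hs => ?_⟩
  obtain ⟨a, ha⟩ := h (2 * s) (by positivity)
  obtain ⟨b, hb⟩ := h (s / 2) (by positivity)
  obtain ⟨a1, a2, a3, a4, a5, a6, a7, a8⟩ := ha
  obtain ⟨b1, b2, b3, b4, b5, b6, b7, b8⟩ := hb
  have hd : ∀ j B x, pdr j B (fun x => a x * (1 - b x)) x =
      pdr j B a x * (1 - b x) - a x * pdr j B b x := by
    intro j B x
    have da : HasFDerivAt a (fderiv ℝ a x) x := (a1.differentiable (by simp) x).hasFDerivAt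
    have db : HasFDerivAt b (fderiv ℝ b x) x := (b1.differentiable (by simp) x).hasFDerivAt
    have dc := da.mul (db.const_sub 1)
    have e : fderiv ℝ (fun x => a x * (1 - b x)) x = _ := dc.fderiv
    rw [pdr, e]
    simp only [pdr, _root_.add_apply, _root_.smul_apply, _root_.neg_apply, smul_eq_mul]
    ring
  refine ⟨fun x => a x * (1 - b x), a1.mul (contDiff_const.sub b1), fun x => ?_, fun x => ?_,
    fun x h1 h2 => ?_, fun x h1 => ?_, fun j B x => ?_⟩
  · exact mul_nonneg (a3 x) (by linarith [b4 x])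
  · exact mul_le_one₀ (a4 x) (by linarith [b4 x]) (by linarith [b3 x])
  · rw [a5 x h2, b6 x (by linarith)]
    ring
  · constructor
    · by_contra h2
      apply h1
      rw [b5 x (by linarith)]
      ring
    · by_contra h2
      apply h1
      rw [a6 x (by linarith)]
      ring
  · rw [hd]
    have k1 : |pdr j B a x| ≤ K / s := by
      by_cases h1 : ‖x‖ < 2 * s
      · rw [a8 j B x h1, abs_zero]
        positivity
      · push Not at h1
        rw [le_div_iff₀ hs]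
        calc |pdr j B a x| * s ≤ |pdr j B a x| * ‖x‖ := by
              gcongr
              linarith
          _ ≤ K := a7 j B x
    have k2 : |pdr j B b x| ≤ 2 * K / s := by
      by_cases h1 : ‖x‖ < s / 2
      · rw [b8 j B x h1, abs_zero]
        positivity
      · push Not at h1
        rw [le_div_iff₀ hs]
        calc |pdr j B b x| * s ≤ |pdr j B b x| * (2 * ‖x‖) := by
              gcongr
              linarith
          _ = 2 * (|pdr j B b x| * ‖x‖) := by ring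
          _ ≤ 2 * K := by linarith [b7 j B x]
    calc |pdr j B a x * (1 - b x) - a x * pdr j B b x| ≤
        |pdr j B a x * (1 - b x)| + |a x * pdr j B b x| := abs_sub _ _
      _ = |pdr j B a x| * (1 - b x) + a x * |pdr j B b x| := by
          rw [abs_mul, abs_mul, abs_of_nonneg (by linarith [b4 x] : 0 ≤ 1 - b x),
            abs_of_nonneg (a3 x)]
      _ ≤ |pdr j B a x| * 1 + 1 * |pdr j B b x| := by
          gcongr
          · linarith [b3 x]
          · exact a4 x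
      _ ≤ 3 * K / s := by
          have : 3 * K / s = K / s + 2 * K / s := by ring
          linarith

/-- size of the gradient operator -/
noncomputable def ncVc (S : Setup d F) : ℝ := ∑ β, ∑ i, ∑ A, ‖S.vec (S.g i) A β‖

theorem ncVc_nonneg (S : Setup d F) : 0 ≤ ncVc S := by unfold ncVc; positivity

variable {K s : ℝ} {χ : Cfg d → ℝ}

theorem nc442_gradOp_le (S : Setup d F) (hK : 0 ≤ K) (hs : 0 < s) (H : NcCut K s χ)
    (β : Fin 16) (x : Cfg d) : ‖S.gradOp χ β x‖ ≤ K * ncVc S / s := by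
  have h1 : ∑ i, ∑ A, ‖S.vec (S.g i) A β‖ ≤ ncVc S :=
    Finset.single_le_sum (f := fun β => ∑ i, ∑ A, ‖S.vec (S.g i) A β‖)
      (fun β _ => by positivity) (Finset.mem_univ β)
  have h2 : ‖S.gradOp χ β x‖ ≤ ∑ i, ∑ A, K / s * ‖S.vec (S.g i) A β‖ := by
    rw [Setup.gradOp, norm_smul, norm_neg, Complex.norm_I, one_mul]
    refine (norm_sum_le _ _).trans (Finset.sum_le_sum fun i _ => ?_)
    refine (norm_sum_le _ _).trans (Finset.sum_le_sum fun A _ => ?_)
    rw [norm_smul, Complex.norm_real]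
    exact mul_le_mul_of_nonneg_right (H.grad i A x) (norm_nonneg _)
  refine h2.trans ?_
  simp only [← Finset.mul_sum]
  calc K / s * ∑ i, ∑ A, ‖S.vec (S.g i) A β‖ ≤ K / s * ncVc S := by gcongr
    _ = K * ncVc S / s := by ring

theorem nc442_gradOp_zero (S : Setup d F) (H : NcCut K s χ) (β : Fin 16) {x : Cfg d}
    (hx : χ x = 0) : S.gradOp χ β x = 0 := by
  have h1 : IsLocalMin χ x := Eventually.of_forall fun y => by rw [hx]; exact H.nn y
  have h2 := h1.fderiv_eq_zero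
  simp only [Setup.gradOp, pdr, h2, _root_.zero_apply, Complex.ofReal_zero, zero_smul,
    Finset.sum_const_zero, smul_zero]

theorem nc442_Qm_cut (S : Setup d F) (H : NcCut K s χ) (m : ℝ) (β : Fin 16) {u : Cfg d → F}
    (hu : Setup.Tst u) (x : Cfg d) :
    S.Qm m β (fun y => ((χ y : ℝ) : ℂ) • u y) x = ((χ x : ℝ) : ℂ) • S.Qm m β u x +
      S.gradOp χ β x (u x) := by
  have e1 := S.Q_cut χ β u x (H.sm.differentiable (by simp) x) (hu.1.differentiable (by simp) x)
  rw [Setup.Qm, e1, Setup.Qm, map_smul, smul_add, smul_comm (m : ℂ) ((χ x : ℝ) : ℂ)]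
  abel

theorem nc442_contMM (S : Setup d F) (β : Fin 16) : ContDiff ℝ ∞ (S.MM β) := by
  unfold Setup.MM
  refine ContDiff.sum fun i _ => ContDiff.sum fun A _ => ?_
  exact (Setup.contDiff_ofReal (contDiff_const.mul (Setup.contDiff_coord _))).smul contDiff_const

theorem nc442_Qm_tst (S : Setup d F) (m : ℝ) (β : Fin 16) {u : Cfg d → F}
    (hu : Setup.Tst u) : Setup.Tst (S.Qm m β u) := by
  have h1 : Setup.Tst (fun x => S.MM β x (u x)) := hu.clm (nc442_contMM S β)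
  have h2 : Setup.Tst (fun x => ((m : ℝ) : ℂ) • S.MM β x (u x)) :=
    h1.rsmul (φ := fun _ => m) contDiff_const
  exact (Setup.Tst.Q S hu β).add h2

theorem nc442_shl_meas (s t : ℝ) : MeasurableSet (AD.shl d s t) :=
  (measurableSet_lt measurable_const measurable_norm).inter
    (measurableSet_lt measurable_norm measurable_const)

/-- upper bound of the energy of the cut off function -/
theorem nc442_upper (S : Setup d F) (hK : 0 ≤ K) (hs : 0 < s) (H : NcCut K s χ) (m : ℝ)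
    {u : Cfg d → F} (hu : Setup.Tst u) :
    ∑ β, nsq (S.Qm m β (fun y => ((χ y : ℝ) : ℂ) • u y)) ≤
      2 * enm S m u (AD.shl d (s / 2) (4 * s)) +
        32 * (K * ncVc S / s) ^ 2 * AD.mas u (AD.shl d (s / 2) (4 * s)) := by
  have hw : Setup.Tst (fun y => ((χ y : ℝ) : ℂ) • u y) := hu.rsmul H.sm
  have h1 : ∀ β, nsq (S.Qm m β (fun y => ((χ y : ℝ) : ℂ) • u y)) ≤
      2 * (∫ x in AD.shl d (s / 2) (4 * s), ‖S.Qm m β u x‖ ^ 2) +
        2 * (K * ncVc S / s) ^ 2 * AD.mas u (AD.shl d (s / 2) (4 * s)) := by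
    intro β
    have hQ := nc442_Qm_tst S m β hu
    have hQw := nc442_Qm_tst S m β hw
    have e1 : nsq (S.Qm m β (fun y => ((χ y : ℝ) : ℂ) • u y)) =
        ∫ x in AD.shl d (s / 2) (4 * s), ‖S.Qm m β (fun y => ((χ y : ℝ) : ℂ) • u y) x‖ ^ 2 := by
      rw [nsq]
      refine (setIntegral_eq_integral_of_forall_compl_eq_zero fun x hx => ?_).symm
      have hx0 : χ x = 0 := by
        by_contra h
        exact hx (H.supp x h)
      rw [nc442_Qm_cut S H m β hu x, nc442_gradOp_zero S H β hx0, hx0]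
      simp
    have i1 : Integrable (fun x => 2 * ‖S.Qm m β u x‖ ^ 2 + 2 * (K * ncVc S / s) ^ 2 * ‖u x‖ ^ 2) :=
      (hQ.norm_sq_int.const_mul 2).add (hu.norm_sq_int.const_mul _)
    rw [e1]
    have h2 : ∫ x in AD.shl d (s / 2) (4 * s),
        ‖S.Qm m β (fun y => ((χ y : ℝ) : ℂ) • u y) x‖ ^ 2 ≤
        ∫ x in AD.shl d (s / 2) (4 * s), (2 * ‖S.Qm m β u x‖ ^ 2 +
          2 * (K * ncVc S / s) ^ 2 * ‖u x‖ ^ 2) := by
      refine setIntegral_mono hQw.norm_sq_int.integrableOn i1.integrableOn fun x => ?_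
      simp only
      rw [nc442_Qm_cut S H m β hu x]
      have g1 : ‖((χ x : ℝ) : ℂ) • S.Qm m β u x‖ ≤ ‖S.Qm m β u x‖ := by
        rw [norm_smul, Complex.norm_real, Real.norm_of_nonneg (H.nn x)]
        exact mul_le_of_le_one_left (norm_nonneg _) (H.le x)
      have g2 : ‖S.gradOp χ β x (u x)‖ ≤ K * ncVc S / s * ‖u x‖ :=
        ((S.gradOp χ β x).le_opNorm _).trans
          (mul_le_mul_of_nonneg_right (nc442_gradOp_le S hK hs H β x) (norm_nonneg _))
      have g3 := (norm_add_le (((χ x : ℝ) : ℂ) • S.Qm m β u x) (S.gradOp χ β x (u x))).trans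
        (add_le_add g1 g2)
      calc ‖((χ x : ℝ) : ℂ) • S.Qm m β u x + S.gradOp χ β x (u x)‖ ^ 2 ≤
          (‖S.Qm m β u x‖ + K * ncVc S / s * ‖u x‖) ^ 2 := by gcongr
        _ ≤ 2 * ‖S.Qm m β u x‖ ^ 2 + 2 * (K * ncVc S / s) ^ 2 * ‖u x‖ ^ 2 := by
            nlinarith [sq_nonneg (‖S.Qm m β u x‖ - K * ncVc S / s * ‖u x‖)]
    refine h2.trans (le_of_eq ?_)
    rw [integral_add (hQ.norm_sq_int.const_mul 2).integrableOn
      (hu.norm_sq_int.const_mul _).integrableOn, integral_const_mul, integral_const_mul]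
    rfl
  refine (Finset.sum_le_sum fun β _ => h1 β).trans (le_of_eq ?_)
  rw [Finset.sum_add_distrib, ← Finset.mul_sum, Finset.sum_const, Finset.card_univ,
    Fintype.card_fin, enm]
  simp only [nsmul_eq_mul]
  push_cast
  ring

end cut

/-- **TW2** -/
theorem nc (S : Setup d F) : NcStmt S := by
  intro _ η hη
  obtain ⟨K, hK, hcut⟩ := nc442_cut (d := d)
  have hV := ncVc_nonneg S
  have hCF := U.CoerZ.CF_nonneg S
  set C1 : ℝ := K * ncVc S with hC1
  set C2 : ℝ := 64 * U.CoerZ.CF S + 12 * ‖S.FG‖ with hC2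
  have hC1' : 0 ≤ C1 := by positivity
  have hC2' : 0 ≤ C2 := by positivity
  refine ⟨1 + 32 / η, 1 / (4 * η) * (2 + 32 * C1 ^ 2 + C2), ?_, by positivity, ?_⟩
  · have : 0 ≤ 32 / η := by positivity
    linarith
  intro s hsR m hm hm1 u hu
  have hs1 : 1 ≤ s := by
    have : 0 ≤ 32 / η := by positivity
    linarith
  have hs : 0 < s := by linarith
  have hsη : 32 / η ≤ s := by linarith
  have hs2 : 32 ≤ η * s ^ 2 := by
    rw [div_le_iff₀ hη] at hsη
    nlinarith
  obtain ⟨χ, H⟩ := hcut s hs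
  have hut : Setup.Tst u := hu.1
  set A : Set (Cfg d) := {x | s ≤ ‖x‖ ∧ ‖x‖ ≤ 2 * s ∧ η * s ^ 4 ≤ S.V x} with hA
  have hAm : MeasurableSet A :=
    (measurableSet_le measurable_const measurable_norm).inter
      ((measurableSet_le measurable_norm measurable_const).inter
        (measurableSet_le measurable_const (contDiff_V S).continuous.measurable))
  set L : Set (Cfg d) := AD.shl d (s / 2) (4 * s) with hL
  have hLm : MeasurableSet L := nc442_shl_meas _ _
  have hw : Setup.Tst (fun y => ((χ y : ℝ) : ℂ) • u y) := hut.rsmul H.sm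
  have h1 := U.CoerZ.energy_lower S (nc442_a6 S) hm.le (U.CoerZ.continuous_Vm S m)
    (fun x => le_rfl) hw
  have h2 := nc442_upper S hK hs H m hut
  have hP : 0 ≤ ∑ i, ∑ A, nsq (pd i A (fun y => ((χ y : ℝ) : ℂ) • u y)) :=
    Finset.sum_nonneg fun i _ => Finset.sum_nonneg fun A _ => nsq_nonneg _
  have h3 : 4 * η * s ^ 4 * AD.mas u A - C2 * s * AD.mas u L ≤
      ∫ x, (16 * S.Vm m x - 16 * U.CoerZ.CF S * ‖x‖ - 12 * m * ‖S.FG‖) *
        ‖((χ x : ℝ) : ℂ) • u x‖ ^ 2 := by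
    have iA : Integrable (A.indicator fun x => ‖u x‖ ^ 2) := hut.norm_sq_int.indicator hAm
    have iL : Integrable (L.indicator fun x => ‖u x‖ ^ 2) := hut.norm_sq_int.indicator hLm
    have e1 : 4 * η * s ^ 4 * AD.mas u A - C2 * s * AD.mas u L =
        ∫ x, (4 * η * s ^ 4 * A.indicator (fun x => ‖u x‖ ^ 2) x -
          C2 * s * L.indicator (fun x => ‖u x‖ ^ 2) x) := by
      rw [integral_sub (iA.const_mul _) (iL.const_mul _), integral_const_mul, integral_const_mul,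
        integral_indicator hAm, integral_indicator hLm]
      rfl
    rw [e1]
    refine integral_mono ((iA.const_mul _).sub (iL.const_mul _))
      (hw.mul_norm_sq_int (φ := fun x => 16 * S.Vm m x - 16 * U.CoerZ.CF S * ‖x‖ -
        12 * m * ‖S.FG‖) ?_) fun x => ?_
    · have := U.CoerZ.continuous_Vm S m
      fun_prop
    simp only
    have hn : ‖((χ x : ℝ) : ℂ) • u x‖ = χ x * ‖u x‖ := by
      rw [norm_smul, Complex.norm_real, Real.norm_of_nonneg (H.nn x)]
    have hu0 : 0 ≤ ‖u x‖ ^ 2 := by positivity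
    have hV0 := nc442_nonneg S m x
    by_cases hxL : x ∈ L
    · have hx4 : ‖x‖ ≤ 4 * s := hxL.2.le
      rw [Set.indicator_of_mem hxL, hn]
      have hneg : 16 * U.CoerZ.CF S * ‖x‖ + 12 * m * ‖S.FG‖ ≤ C2 * s := by
        have q1 : 16 * U.CoerZ.CF S * ‖x‖ ≤ 16 * U.CoerZ.CF S * (4 * s) := by gcongr
        have q2 : 12 * m * ‖S.FG‖ ≤ 12 * s * ‖S.FG‖ := by
          gcongr
          linarith
        rw [hC2]
        linarith
      by_cases hxA : x ∈ A
      · rw [Set.indicator_of_mem hxA, H.one x hxA.1 hxA.2.1, one_mul]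
        have hVA : (1 / 4) * η * s ^ 4 ≤ S.Vm m x := by
          have q1 := nc442_lower S m x
          have q2 : η * s ^ 4 ≤ S.V x := hxA.2.2
          have q3 : ‖x‖ ^ 2 ≤ (2 * s) ^ 2 := by
            have := hxA.2.1
            gcongr
          have q4 : m ^ 2 ≤ 1 := by nlinarith
          have q5 : 2 * m ^ 2 * ‖x‖ ^ 2 ≤ 2 * 1 * (2 * s) ^ 2 := by gcongr
          have q6 : 32 * s ^ 2 ≤ η * s ^ 4 := by
            have : s ^ 4 = s ^ 2 * s ^ 2 := by ring
            rw [this, ← mul_assoc]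
            exact mul_le_mul_of_nonneg_right hs2 (by positivity)
          linarith
        nlinarith
      · rw [Set.indicator_of_notMem hxA]
        have hc2 : χ x ^ 2 ≤ 1 := pow_le_one₀ (H.nn x) (H.le x)
        have q1 : (χ x * ‖u x‖) ^ 2 ≤ ‖u x‖ ^ 2 := by
          rw [mul_pow]
          exact mul_le_of_le_one_left hu0 hc2
        have q2 : 0 ≤ (χ x * ‖u x‖) ^ 2 := by positivity
        have q3 : 0 ≤ C2 * s := by positivity
        have q4 : -(C2 * s) ≤ 16 * S.Vm m x - 16 * U.CoerZ.CF S * ‖x‖ - 12 * m * ‖S.FG‖ := by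
          linarith
        have q5 := mul_le_mul_of_nonneg_right q4 q2
        have q6 := mul_le_mul_of_nonneg_left q1 q3
        linarith
    · have hxA : x ∉ A := fun h => hxL ⟨by linarith [h.1], by linarith [h.2.1]⟩
      have hx0 : χ x = 0 := by
        by_contra h
        exact hxL (H.supp x h)
      rw [Set.indicator_of_notMem hxL, Set.indicator_of_notMem hxA, hn, hx0]
      simp
  have hmA : 0 ≤ AD.mas u A := setIntegral_nonneg hAm fun x _ => by positivity
  have hmL : 0 ≤ AD.mas u L := setIntegral_nonneg hLm fun x _ => by positivity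
  have hE : 0 ≤ enm S m u L := by
    unfold enm
    exact Finset.sum_nonneg fun β _ => setIntegral_nonneg hLm fun x _ => by positivity
  have h4 : 4 * η * s ^ 4 * AD.mas u A ≤ 2 * enm S m u L + 32 * (C1 / s) ^ 2 * AD.mas u L +
      C2 * s * AD.mas u L := by linarith
  set P := AD.mas u A
  set M := AD.mas u L
  set E := enm S m u L
  -- multiply by `m² / (4 η s²)`
  have h5 : m ^ 2 * s ^ 2 * P = m ^ 2 / s ^ 2 * (1 / (4 * η)) * (4 * η * s ^ 4 * P) := by
    field_simp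
  have hms : m ^ 2 / s ^ 2 ≤ 1 := by
    rw [div_le_one (by positivity)]
    have : m ≤ s := by linarith
    gcongr
  have hms2 : m ^ 2 / s ^ 2 * s ≤ m := by
    have : m ^ 2 / s ^ 2 * s = m * (m / s) := by field_simp
    rw [this]
    refine mul_le_of_le_one_right hm.le ?_
    rw [div_le_one hs]
    linarith
  have h6 : m ^ 2 * s ^ 2 * P ≤ 1 / (4 * η) * (2 * E + 32 * C1 ^ 2 * (1 / s ^ 2 * M) +
      C2 * (m * M)) := by
    rw [h5]
    have r1 : m ^ 2 / s ^ 2 * (1 / (4 * η)) * (4 * η * s ^ 4 * P) ≤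
        m ^ 2 / s ^ 2 * (1 / (4 * η)) * (2 * E + 32 * (C1 / s) ^ 2 * M + C2 * s * M) := by
      gcongr
    refine r1.trans ?_
    have r2 : m ^ 2 / s ^ 2 * (1 / (4 * η)) * (2 * E + 32 * (C1 / s) ^ 2 * M + C2 * s * M) =
        1 / (4 * η) * (m ^ 2 / s ^ 2 * (2 * E) + m ^ 2 / s ^ 2 * (32 * C1 ^ 2 * (1 / s ^ 2 * M)) +
          C2 * (m ^ 2 / s ^ 2 * s * M)) := by
      rw [div_pow]
      ring
    rw [r2]
    have r3 : m ^ 2 / s ^ 2 * (2 * E) ≤ 2 * E := mul_le_of_le_one_left (by positivity) hms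
    have r4 : m ^ 2 / s ^ 2 * (32 * C1 ^ 2 * (1 / s ^ 2 * M)) ≤ 32 * C1 ^ 2 * (1 / s ^ 2 * M) :=
      mul_le_of_le_one_left (by positivity) hms
    have r5 : C2 * (m ^ 2 / s ^ 2 * s * M) ≤ C2 * (m * M) := by gcongr
    have r6 : 0 ≤ 1 / (4 * η) := by positivity
    exact mul_le_mul_of_nonneg_left (by linarith) r6
  refine h6.trans ?_
  have hass : 1 / (4 * η) * (2 + 32 * C1 ^ 2 + C2) * (E + (1 / s ^ 2 + m) * M) =
      1 / (4 * η) * ((2 + 32 * C1 ^ 2 + C2) * (E + (1 / s ^ 2 + m) * M)) := mul_assoc _ _ _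
  rw [hass]
  have r7 : 0 ≤ 1 / (4 * η) := by positivity
  refine mul_le_mul_of_nonneg_left ?_ r7
  have t1 : 0 ≤ 1 / s ^ 2 * M := by positivity
  have t2 : 0 ≤ m * M := by positivity
  have t3 : 0 ≤ C1 ^ 2 * E := by positivity
  have t4 : 0 ≤ C2 * E := by positivity
  have t5 : 0 ≤ C1 ^ 2 * (m * M) := by positivity
  have t6 : 0 ≤ C2 * (1 / s ^ 2 * M) := by positivity
  have e : (2 + 32 * C1 ^ 2 + C2) * (E + (1 / s ^ 2 + m) * M) =
      2 * E + 32 * C1 ^ 2 * (1 / s ^ 2 * M) + C2 * (m * M) + (2 * (1 / s ^ 2 * M) + 2 * (m * M) +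
        32 * (C1 ^ 2 * E) + C2 * E + 32 * (C1 ^ 2 * (m * M)) + C2 * (1 / s ^ 2 * M)) := by ring
  rw [e]
  linarith

end Vale.Agent.P353.Z.AT
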