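import Vale.Agent.P353.AN.TW.Stmt

/-! # P353, all `N`, block TW4: summation over dyadic scales -/

open MeasureTheory Filter Topology
open scoped ContDiff

namespace Vale.Agent.P353.Z.AT

variable {d dh dm : ℕ} {F : Type*} [NormedAddCommGroup F] [InnerProductSpace ℂ F]

/-- at most three dyadic shells contain a given radius -/
theorem sm827_card (s₀ : ℝ) (hs : 0 < s₀) (r : ℝ) (K : ℕ) :
    ((Finset.range K).filter (fun k => 2 ^ k * s₀ / 2 < r ∧ r < 4 * (2 ^ k * s₀))).card ≤ 3 := by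
  classical
  set J := (Finset.range K).filter (fun k => 2 ^ k * s₀ / 2 < r ∧ r < 4 * (2 ^ k * s₀)) with hJ
  rcases J.eq_empty_or_nonempty with h | h
  · rw [h]; simp
  · have h0 := Finset.min'_mem J h
    set k0 := J.min' h with hk0
    have h0' := (Finset.mem_filter.1 h0).2
    have hsub : J ⊆ Finset.Ico k0 (k0 + 3) := by
      intro k hk
      have hk1 : k0 ≤ k := Finset.min'_le J k hk
      have hk2 := (Finset.mem_filter.1 hk).2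
      rw [Finset.mem_Ico]
      refine ⟨hk1, ?_⟩
      by_contra hlt
      push Not at hlt
      have h3 : (2 : ℝ) ^ (k0 + 3) ≤ 2 ^ k := pow_le_pow_right₀ (by norm_num) hlt
      have h4 : (2 : ℝ) ^ (k0 + 3) = 8 * 2 ^ k0 := by rw [pow_add]; norm_num; ring
      have h5 : 8 * 2 ^ k0 * s₀ ≤ 2 ^ k * s₀ := by
        rw [← h4]; exact mul_le_mul_of_nonneg_right h3 hs.le
      linarith [hk2.1, h0'.2]
    calc J.card ≤ (Finset.Ico k0 (k0 + 3)).card := Finset.card_le_card hsub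
      _ = 3 := by simp

theorem sm827_meas (s t : ℝ) : MeasurableSet (AD.shl d s t) :=
  (measurableSet_lt measurable_const measurable_norm).inter
    (measurableSet_lt measurable_norm measurable_const)

/-- the shells `(s_k/2, 4 s_k)` overlap at most three times -/
theorem sm827_ov {f : Cfg d → ℝ} (hf : Integrable f) (h0 : ∀ x, 0 ≤ f x) (s₀ : ℝ) (hs : 0 < s₀) (K : ℕ) :
    ∑ k ∈ Finset.range K, ∫ x in AD.shl d (2 ^ k * s₀ / 2) (4 * (2 ^ k * s₀)), f x ≤ 3 * ∫ x, f x := by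
  classical
  have hm : ∀ k : ℕ, MeasurableSet (AD.shl d (2 ^ k * s₀ / 2) (4 * (2 ^ k * s₀))) :=
    fun k => sm827_meas _ _
  calc ∑ k ∈ Finset.range K, ∫ x in AD.shl d (2 ^ k * s₀ / 2) (4 * (2 ^ k * s₀)), f x
      = ∑ k ∈ Finset.range K, ∫ x, (AD.shl d (2 ^ k * s₀ / 2) (4 * (2 ^ k * s₀))).indicator f x :=
        Finset.sum_congr rfl fun k _ => (integral_indicator (hm k)).symm
    _ = ∫ x, ∑ k ∈ Finset.range K, (AD.shl d (2 ^ k * s₀ / 2) (4 * (2 ^ k * s₀))).indicator f x :=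
        (integral_finsetSum _ fun k _ => hf.indicator (hm k)).symm
    _ ≤ ∫ x, 3 * f x := by
        refine integral_mono (integrable_finsetSum _ fun k _ => hf.indicator (hm k)) (hf.const_mul 3)
          fun x => ?_
        have h1 : ∀ k : ℕ, (AD.shl d (2 ^ k * s₀ / 2) (4 * (2 ^ k * s₀))).indicator f x =
            if 2 ^ k * s₀ / 2 < ‖x‖ ∧ ‖x‖ < 4 * (2 ^ k * s₀) then f x else 0 := by
          intro k
          by_cases hk : 2 ^ k * s₀ / 2 < ‖x‖ ∧ ‖x‖ < 4 * (2 ^ k * s₀)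
          · have hk' : x ∈ AD.shl d (2 ^ k * s₀ / 2) (4 * (2 ^ k * s₀)) := hk
            rw [Set.indicator_of_mem hk', if_pos hk]
          · have hk' : x ∉ AD.shl d (2 ^ k * s₀ / 2) (4 * (2 ^ k * s₀)) := hk
            rw [Set.indicator_of_notMem hk', if_neg hk]
        change ∑ k ∈ Finset.range K, (AD.shl d (2 ^ k * s₀ / 2) (4 * (2 ^ k * s₀))).indicator f x ≤ 3 * f x
        simp only [h1]
        rw [← Finset.sum_filter, Finset.sum_const, nsmul_eq_mul]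
        refine mul_le_mul_of_nonneg_right ?_ (h0 x)
        exact_mod_cast sm827_card s₀ hs ‖x‖ K
    _ = 3 * ∫ x, f x := integral_const_mul _ _

/-- dyadic decomposition of the second moment -/
theorem sm827_split {u : Cfg d → F} (hu : Setup.Tst u) (s₀ : ℝ) (hs : 0 < s₀) :
    ∃ K : ℕ, (∫ x, ‖x‖ ^ 2 * ‖u x‖ ^ 2) ≤ s₀ ^ 2 * nsq u +
      ∑ k ∈ Finset.range K, 4 * (2 ^ k * s₀) ^ 2 *
        AD.mas u {x | 2 ^ k * s₀ ≤ ‖x‖ ∧ ‖x‖ ≤ 2 * (2 ^ k * s₀)} := by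
  classical
  obtain ⟨B, hB⟩ := hu.2.isCompact.isBounded.exists_norm_le
  obtain ⟨K, hK⟩ := pow_unbounded_of_one_lt (B / s₀) (by norm_num : (1 : ℝ) < 2)
  refine ⟨K, ?_⟩
  have hBK : B < 2 ^ K * s₀ := by rwa [div_lt_iff₀ hs] at hK
  have hi := hu.norm_sq_int
  have hi2 : Integrable (fun x => ‖x‖ ^ 2 * ‖u x‖ ^ 2) := Setup.Tst.mul_norm_sq_int (by fun_prop) hu
  have hm : ∀ k : ℕ, MeasurableSet {x : Cfg d | 2 ^ k * s₀ ≤ ‖x‖ ∧ ‖x‖ ≤ 2 * (2 ^ k * s₀)} :=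
    fun k => (measurableSet_le measurable_const measurable_norm).inter
      (measurableSet_le measurable_norm measurable_const)
  have hint : ∀ k : ℕ, Integrable (fun x => 4 * (2 ^ k * s₀) ^ 2 *
      ({x : Cfg d | 2 ^ k * s₀ ≤ ‖x‖ ∧ ‖x‖ ≤ 2 * (2 ^ k * s₀)}).indicator (fun x => ‖u x‖ ^ 2) x) :=
    fun k => (hi.indicator (hm k)).const_mul _
  have hpt : ∀ x, ‖x‖ ^ 2 * ‖u x‖ ^ 2 ≤ s₀ ^ 2 * ‖u x‖ ^ 2 + ∑ k ∈ Finset.range K, 4 * (2 ^ k * s₀) ^ 2 *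
      ({x : Cfg d | 2 ^ k * s₀ ≤ ‖x‖ ∧ ‖x‖ ≤ 2 * (2 ^ k * s₀)}).indicator (fun x => ‖u x‖ ^ 2) x := by
    intro x
    have hnn : ∀ k ∈ Finset.range K, 0 ≤ 4 * (2 ^ k * s₀) ^ 2 *
        ({x : Cfg d | 2 ^ k * s₀ ≤ ‖x‖ ∧ ‖x‖ ≤ 2 * (2 ^ k * s₀)}).indicator (fun x => ‖u x‖ ^ 2) x :=
      fun k _ => mul_nonneg (by positivity) (Set.indicator_nonneg (fun x _ => by positivity) x)
    have hsn := Finset.sum_nonneg hnn
    have hsq : 0 ≤ ‖u x‖ ^ 2 := by positivity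
    rcases le_or_gt ‖x‖ s₀ with h | h
    · have h1 : ‖x‖ ^ 2 ≤ s₀ ^ 2 := pow_le_pow_left₀ (norm_nonneg _) h 2
      have h2 := mul_le_mul_of_nonneg_right h1 hsq
      linarith
    · by_cases hx : u x = 0
      · have h1 : ‖x‖ ^ 2 * ‖u x‖ ^ 2 = 0 := by rw [hx]; simp
        have h2 : 0 ≤ s₀ ^ 2 * ‖u x‖ ^ 2 := by positivity
        linarith
      · have hxB : ‖x‖ ≤ B := hB x (subset_tsupport _ hx)
        obtain ⟨n, hn1, hn2⟩ := exists_nat_pow_near (x := ‖x‖ / s₀) (y := 2)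
          (by rw [le_div_iff₀ hs]; linarith) (by norm_num)
        rw [le_div_iff₀ hs] at hn1
        rw [div_lt_iff₀ hs] at hn2
        have hnK : n < K := by
          by_contra hlt
          push Not at hlt
          have h3 : (2 : ℝ) ^ K ≤ 2 ^ n := pow_le_pow_right₀ (by norm_num) hlt
          have h4 := mul_le_mul_of_nonneg_right h3 hs.le
          linarith
        have hle : ‖x‖ ≤ 2 * (2 ^ n * s₀) := by
          rw [pow_succ] at hn2; linarith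
        have h5 := Finset.single_le_sum hnn (Finset.mem_range.2 hnK)
        have h6 : 4 * (2 ^ n * s₀) ^ 2 *
          ({x : Cfg d | 2 ^ n * s₀ ≤ ‖x‖ ∧ ‖x‖ ≤ 2 * (2 ^ n * s₀)}).indicator (fun x => ‖u x‖ ^ 2) x =
            4 * (2 ^ n * s₀) ^ 2 * ‖u x‖ ^ 2 := by
          rw [Set.indicator_of_mem (show x ∈ {x : Cfg d | 2 ^ n * s₀ ≤ ‖x‖ ∧ ‖x‖ ≤ 2 * (2 ^ n * s₀)} from ⟨hn1, hle⟩)]
        rw [h6] at h5
        have h7 : ‖x‖ ^ 2 ≤ 4 * (2 ^ n * s₀) ^ 2 := by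
          have := pow_le_pow_left₀ (norm_nonneg x) hle 2
          linarith [this, (by ring : (2 * (2 ^ n * s₀)) ^ 2 = 4 * (2 ^ n * s₀) ^ 2)]
        have h8 := mul_le_mul_of_nonneg_right h7 hsq
        have h9 : 0 ≤ s₀ ^ 2 * ‖u x‖ ^ 2 := by positivity
        linarith
  calc (∫ x, ‖x‖ ^ 2 * ‖u x‖ ^ 2) ≤ ∫ x, (s₀ ^ 2 * ‖u x‖ ^ 2 + ∑ k ∈ Finset.range K, 4 * (2 ^ k * s₀) ^ 2 *
        ({x : Cfg d | 2 ^ k * s₀ ≤ ‖x‖ ∧ ‖x‖ ≤ 2 * (2 ^ k * s₀)}).indicator (fun x => ‖u x‖ ^ 2) x) :=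
        integral_mono hi2 ((hi.const_mul _).add (integrable_finsetSum _ fun k _ => hint k)) hpt
    _ = s₀ ^ 2 * nsq u + ∑ k ∈ Finset.range K, 4 * (2 ^ k * s₀) ^ 2 *
        AD.mas u {x | 2 ^ k * s₀ ≤ ‖x‖ ∧ ‖x‖ ≤ 2 * (2 ^ k * s₀)} := by
        rw [integral_add (hi.const_mul _) (integrable_finsetSum _ fun k _ => hint k),
          integral_const_mul, integral_finsetSum _ fun k _ => hint k]
        congr 1
        refine Finset.sum_congr rfl fun k _ => ?_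
        rw [integral_const_mul, integral_indicator (hm k)]
        rfl

/-- **TW4** -/
theorem sm4 (S : Setup d F) : SumStmt S := by
  rintro ⟨R₁, C, hR, hC, hsh⟩
  refine ⟨R₁ ^ 2 + 24 * C, by positivity, fun m hm hm1 u hu => ?_⟩
  have hR0 : 0 < R₁ := by linarith
  set q : ℝ := Real.sqrt m with hq
  have hq0 : 0 < q := Real.sqrt_pos.2 hm
  have hqq : q ^ 2 = m := Real.sq_sqrt hm.le
  have hq1 : q ≤ 1 := by
    rw [hq]; exact Real.sqrt_le_one.2 hm1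
  set s₀ : ℝ := R₁ / q with hs0
  have hs : 0 < s₀ := by positivity
  have hsR : R₁ ≤ s₀ := by
    rw [hs0, le_div_iff₀ hq0]
    nlinarith
  have hsq : s₀ ^ 2 = R₁ ^ 2 / m := by rw [hs0, div_pow, hqq]
  have hms : m * s₀ ^ 2 = R₁ ^ 2 := by rw [hsq]; field_simp
  obtain ⟨K, hK⟩ := sm827_split hu.1 s₀ hs
  have hen : ∀ (A : Set (Cfg d)), 0 ≤ enm S m u A := fun A =>
    Finset.sum_nonneg fun β _ => integral_nonneg fun x => sq_nonneg _
  have hmas : ∀ (A : Set (Cfg d)), 0 ≤ AD.mas u A := fun A => integral_nonneg fun x => sq_nonneg _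
  have hk : ∀ k ∈ Finset.range K, m ^ 2 * (4 * (2 ^ k * s₀) ^ 2 *
      AD.mas u {x | 2 ^ k * s₀ ≤ ‖x‖ ∧ ‖x‖ ≤ 2 * (2 ^ k * s₀)}) ≤
      4 * C * enm S m u (AD.shl d (2 ^ k * s₀ / 2) (4 * (2 ^ k * s₀))) +
        8 * C * m * AD.mas u (AD.shl d (2 ^ k * s₀ / 2) (4 * (2 ^ k * s₀))) := by
    intro k _
    have h1 : s₀ ≤ 2 ^ k * s₀ := by
      have : (1 : ℝ) ≤ 2 ^ k := one_le_pow₀ (by norm_num)
      nlinarith
    have h2 := hsh (2 ^ k * s₀) (hsR.trans h1) m hm hm1 u hu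
    have h3 : 1 / (2 ^ k * s₀) ^ 2 ≤ m := by
      rw [div_le_iff₀ (by positivity)]
      have h4 : s₀ ^ 2 ≤ (2 ^ k * s₀) ^ 2 := pow_le_pow_left₀ hs.le h1 2
      have h5 := mul_le_mul_of_nonneg_left h4 hm.le
      rw [hms] at h5
      have h6 : 1 ≤ R₁ ^ 2 := one_le_pow₀ hR
      linarith
    have h4 : (1 / (2 ^ k * s₀) ^ 2 + m) * AD.mas u (AD.shl d (2 ^ k * s₀ / 2) (4 * (2 ^ k * s₀))) ≤
        2 * m * AD.mas u (AD.shl d (2 ^ k * s₀ / 2) (4 * (2 ^ k * s₀))) :=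
      mul_le_mul_of_nonneg_right (by linarith) (hmas _)
    have h5 := mul_le_mul_of_nonneg_left h4 hC
    have h6 : C * (enm S m u (AD.shl d (2 ^ k * s₀ / 2) (4 * (2 ^ k * s₀))) +
        (1 / (2 ^ k * s₀) ^ 2 + m) * AD.mas u (AD.shl d (2 ^ k * s₀ / 2) (4 * (2 ^ k * s₀)))) ≤
        C * enm S m u (AD.shl d (2 ^ k * s₀ / 2) (4 * (2 ^ k * s₀))) +
          C * (2 * m * AD.mas u (AD.shl d (2 ^ k * s₀ / 2) (4 * (2 ^ k * s₀)))) := by
      rw [mul_add]; linarith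
    have h7 := h2.trans h6
    calc m ^ 2 * (4 * (2 ^ k * s₀) ^ 2 * AD.mas u {x | 2 ^ k * s₀ ≤ ‖x‖ ∧ ‖x‖ ≤ 2 * (2 ^ k * s₀)})
        = 4 * (m ^ 2 * (2 ^ k * s₀) ^ 2 *
            AD.mas u {x | 2 ^ k * s₀ ≤ ‖x‖ ∧ ‖x‖ ≤ 2 * (2 ^ k * s₀)}) := by ring
      _ ≤ 4 * (C * enm S m u (AD.shl d (2 ^ k * s₀ / 2) (4 * (2 ^ k * s₀))) +
          C * (2 * m * AD.mas u (AD.shl d (2 ^ k * s₀ / 2) (4 * (2 ^ k * s₀))))) :=
          mul_le_mul_of_nonneg_left h7 (by norm_num)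
      _ = _ := by ring
  have hsum1 : ∑ k ∈ Finset.range K, enm S m u (AD.shl d (2 ^ k * s₀ / 2) (4 * (2 ^ k * s₀))) ≤
      3 * S.en m u := by
    unfold enm Setup.en nsq
    rw [Finset.sum_comm, Finset.mul_sum]
    exact Finset.sum_le_sum fun β _ => sm827_ov (U.HB.Tst_Qm S m β hu.1).norm_sq_int
      (fun x => sq_nonneg _) s₀ hs K
  have hsum2 : ∑ k ∈ Finset.range K, AD.mas u (AD.shl d (2 ^ k * s₀ / 2) (4 * (2 ^ k * s₀))) ≤
      3 * nsq u := sm827_ov hu.1.norm_sq_int (fun x => sq_nonneg _) s₀ hs K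
  have hE : 0 ≤ S.en m u := Finset.sum_nonneg fun β _ => integral_nonneg fun x => sq_nonneg _
  have hN : 0 ≤ nsq u := integral_nonneg fun x => sq_nonneg _
  calc m ^ 2 * (∫ x, ‖x‖ ^ 2 * ‖u x‖ ^ 2)
      ≤ m ^ 2 * (s₀ ^ 2 * nsq u + ∑ k ∈ Finset.range K, 4 * (2 ^ k * s₀) ^ 2 *
        AD.mas u {x | 2 ^ k * s₀ ≤ ‖x‖ ∧ ‖x‖ ≤ 2 * (2 ^ k * s₀)}) :=
        mul_le_mul_of_nonneg_left hK (by positivity)
    _ = m * (m * s₀ ^ 2) * nsq u + ∑ k ∈ Finset.range K, m ^ 2 * (4 * (2 ^ k * s₀) ^ 2 *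
        AD.mas u {x | 2 ^ k * s₀ ≤ ‖x‖ ∧ ‖x‖ ≤ 2 * (2 ^ k * s₀)}) := by
        rw [mul_add, Finset.mul_sum]; ring
    _ ≤ m * R₁ ^ 2 * nsq u + ∑ k ∈ Finset.range K,
        (4 * C * enm S m u (AD.shl d (2 ^ k * s₀ / 2) (4 * (2 ^ k * s₀))) +
        8 * C * m * AD.mas u (AD.shl d (2 ^ k * s₀ / 2) (4 * (2 ^ k * s₀)))) := by
        rw [hms]
        exact add_le_add le_rfl (Finset.sum_le_sum hk)
    _ = m * R₁ ^ 2 * nsq u +
        (4 * C * ∑ k ∈ Finset.range K, enm S m u (AD.shl d (2 ^ k * s₀ / 2) (4 * (2 ^ k * s₀))) +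
        8 * C * m * ∑ k ∈ Finset.range K, AD.mas u (AD.shl d (2 ^ k * s₀ / 2) (4 * (2 ^ k * s₀)))) := by
        rw [Finset.sum_add_distrib, Finset.mul_sum, Finset.mul_sum]
    _ ≤ m * R₁ ^ 2 * nsq u + (4 * C * (3 * S.en m u) + 8 * C * m * (3 * nsq u)) := by
        gcongr
    _ ≤ (R₁ ^ 2 + 24 * C) * (S.en m u + m * nsq u) := by
        have h1 : 0 ≤ R₁ ^ 2 * S.en m u := by positivity
        have h2 : 0 ≤ C * S.en m u := by positivity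
        nlinarith

end Vale.Agent.P353.Z.AT
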