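import Vale.Agent.P353.AN.TW.TubLoc
import Vale.Agent.P353.Z.U.A2

/-! # P353, all `N`, block TW (helper554): TW1, reduction to the rotated frame -/

open MeasureTheory Filter Topology
open scoped ContDiff

namespace Vale.Agent.P353.Z.AT

variable {d dh dm : ℕ} {F : Type*} [NormedAddCommGroup F] [InnerProductSpace ℂ F]

private lemma tr_contDiff_rox (R : Matrix (Fin 9) (Fin 9) ℝ) (O : Matrix (Fin d) (Fin d) ℝ) :
    ContDiff ℝ ∞ (rox R O : Cfg d → Cfg d) := by
  unfold rox
  rw [contDiff_euclidean]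
  intro p
  show ContDiff ℝ ∞ fun x : Cfg d => ∑ j, ∑ B, R p.1 j * O p.2 B * x (j, B)
  refine ContDiff.sum fun j _ => ContDiff.sum fun B _ => ?_
  exact contDiff_const.mul (Setup.contDiff_coord _)

private lemma tr_gauge_Qm (S : Setup d F) (m : ℝ) {u : Cfg d → F} (hu : Setup.Tst u)
    (hG : ∀ C x, S.G C u x = 0) (β : Fin 16) : ∀ C x, S.G C (S.Qm m β u) x = 0 := by
  intro C x
  rw [U.a3 S m C β u hu.1 x]
  have h3 : S.G C u = fun _ => 0 := funext fun z => hG C z
  rw [h3]
  exact U.HB.Qm_zero S m β x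

/-- **TW1** -/
theorem tub1 (S : Setup d F) : TubStmt S := by
  intro hfd hrot hfr R hR O hO hin dh dm φ Y hY hdm hY0 σ hσ
  obtain ⟨hnorm, hmp, hinv, -, -, hQ, hG⟩ := hrot R hR O hO
  obtain ⟨hmass, hMM, hN⟩ := hfr
  obtain ⟨hmass', hMx⟩ := (hN (AN.N0 S)).1 R hR O hO hmass
  have hR' : R.transpose * R.transpose.transpose = 1 := by
    rw [Matrix.transpose_transpose]; exact mul_eq_one_comm.1 hR
  have hO' : O.transpose * O.transpose.transpose = 1 := by
    rw [Matrix.transpose_transpose]; exact mul_eq_one_comm.1 hO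
  have hinv' : ∀ z : Cfg d, rox R O (rox R.transpose O.transpose z) = z := by
    have h := (hrot R.transpose hR' O.transpose hO').2.2.1
    intro z
    have := h z
    rwa [Matrix.transpose_transpose, Matrix.transpose_transpose] at this
  obtain ⟨δ, R₁, C, hδ, hδσ, hR₁, hC, hloc⟩ := tub_loc (S.rot R hR O hO) hfd hin φ Y hY hdm (AN.rotN R (AN.N0 S)) hmass' σ hσ
  refine ⟨δ, R₁, C, hδ, hδσ, hR₁, hC, ?_⟩
  intro s hs m hm hm1 u hu
  -- the rotated function
  set u' : Cfg d → F := fun z => u (rox R.transpose O.transpose z) with hu'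
  have hcomp : ∀ x, u' (rox R O x) = u x := fun x => by
    show u (rox R.transpose O.transpose (rox R O x)) = u x
    rw [hinv]
  have hT' : Setup.Tst u' := by
    refine ⟨hu.1.1.comp (tr_contDiff_rox _ _), ?_⟩
    let e : Cfg d ≃ₜ Cfg d :=
      { toFun := rox R.transpose O.transpose
        invFun := rox R O
        left_inv := hinv'
        right_inv := hinv
        continuous_toFun := (tr_contDiff_rox _ _).continuous
        continuous_invFun := (tr_contDiff_rox _ _).continuous }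
    exact hu.1.2.comp_homeomorph e
  have hfun : (fun x => u' (rox R O x)) = u := funext hcomp
  have hG' : ∀ C z, (S.rot R hR O hO).G C u' z = 0 := by
    intro C z
    rw [← hinv' z, hG u' (hT'.1.differentiable (by simp)), hfun]
    exact Finset.sum_eq_zero fun C' _ => by rw [hu.2, smul_zero]
  have hq : ∀ β x, qn (S.rot R hR O hO) (AN.rotN R (AN.N0 S)) m β u' (rox R O x) = S.Qm m β u x := by
    intro β x
    unfold qn Setup.Qm
    rw [hQ u' (hT'.1.differentiable (by simp)), hfun, hMx, hcomp, hMM]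
  have hGq : ∀ β C z, (S.rot R hR O hO).G C (qn (S.rot R hR O hO) (AN.rotN R (AN.N0 S)) m β u') z = 0 := by
    intro β C z
    rw [← hinv' z, hG _ ((tst_qn _ _ m β hT').1.differentiable (by simp))]
    refine Finset.sum_eq_zero fun C' _ => ?_
    have : (fun z => qn (S.rot R hR O hO) (AN.rotN R (AN.N0 S)) m β u' (rox R O z)) = S.Qm m β u := funext fun x => hq β x
    rw [this, tr_gauge_Qm S m hu.1 hu.2 β, smul_zero]
  have hmas : ∀ (f : Cfg d → F) (g : Cfg d → F), Continuous f → (∀ x, f (rox R O x) = g x) → ∀ A : Set (Cfg d),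
      MeasurableSet A → ∫ x in A, ‖f x‖ ^ 2 = ∫ x in (rox R O) ⁻¹' A, ‖g x‖ ^ 2 := by
    intro f g hf hfg A hA
    have h1 := hmp.restrict_preimage hA
    have h2 : ∫ y, ‖f y‖ ^ 2 ∂(Measure.map (rox R O) (volume.restrict ((rox R O) ⁻¹' A))) =
        ∫ x in (rox R O) ⁻¹' A, ‖f (rox R O x)‖ ^ 2 :=
      integral_map h1.measurable.aemeasurable (hf.norm.pow 2).aestronglyMeasurable
    rw [h1.map_eq] at h2
    rw [h2]
    simp only [hfg]
  have hshl : (rox R O) ⁻¹' (AD.shl d ((‖Y‖ - σ) * s) ((‖Y‖ + σ) * s)) =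
      AD.shl d ((‖Y‖ - σ) * s) ((‖Y‖ + σ) * s) := by
    ext x
    simp [AD.shl, hnorm]
  have hmshl : MeasurableSet (AD.shl d ((‖Y‖ - σ) * s) ((‖Y‖ + σ) * s)) :=
    ((isOpen_lt continuous_const continuous_norm).inter (isOpen_lt continuous_norm continuous_const)).measurableSet
  have h := hloc s hs m hm hm1 u' hT' hG' hGq
  have e1 : AD.mas u' (Metric.ball (s • emb φ Y 0) (δ * s)) =
      AD.mas u {x | rox R O x ∈ Metric.ball (s • emb φ Y 0) (δ * s)} :=
    hmas u' u hT'.1.continuous hcomp _ Metric.isOpen_ball.measurableSet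
  have e2 : AD.mas u' (AD.shl d ((‖Y‖ - σ) * s) ((‖Y‖ + σ) * s)) =
      AD.mas u (AD.shl d ((‖Y‖ - σ) * s) ((‖Y‖ + σ) * s)) := by
    have := hmas u' u hT'.1.continuous hcomp _ hmshl
    rw [hshl] at this
    exact this
  have e3 : (∑ β, ∫ x in AD.shl d ((‖Y‖ - σ) * s) ((‖Y‖ + σ) * s),
      ‖qn (S.rot R hR O hO) (AN.rotN R (AN.N0 S)) m β u' x‖ ^ 2) =
      enm S m u (AD.shl d ((‖Y‖ - σ) * s) ((‖Y‖ + σ) * s)) := by
    unfold enm
    refine Finset.sum_congr rfl fun β _ => ?_
    have := hmas _ (S.Qm m β u) (tst_qn (S.rot R hR O hO) (AN.rotN R (AN.N0 S)) m β hT').1.continuous (hq β) _ hmshl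
    rw [hshl] at this
    exact this
  rw [e1, e2, e3] at h
  exact h

end Vale.Agent.P353.Z.AT
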