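import Vale.Agent.P353.AN.TW.Sh
import Vale.Agent.P353.AN.TW.Tub
import Vale.Agent.P353.AN.TW.Nc
import Vale.Agent.P353.AN.TW.Sum
import Vale.Agent.P353.AN.A.TubeF
import Vale.Agent.P353.AN.A.Det
import Vale.Agent.P353.AN.A.Dexp
import Vale.Agent.P353.AN.A.Coo
import Vale.Agent.P353.AN.A.Inj
import Vale.Agent.P353.AN.A.Dec
import Vale.Agent.P353.AN.A.Bd
import Vale.Agent.P353.AN.A.Gh
import Vale.Agent.P353.AN.A.Cut
import Vale.Agent.P353.AN.A.Cov
import Vale.Agent.P353.AN.A.Std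
import Vale.Agent.P353.AN.A.Rot
import Vale.Agent.P353.AN.C.Frame

/-! # P353, all `N`, block TW: assembly -/

open MeasureTheory Filter Topology
open scoped ContDiff

namespace Vale.Agent.P353.Z.AT

variable {d : ℕ} {F : Type*} [NormedAddCommGroup F] [InnerProductSpace ℂ F]

/-- the inputs of the local estimate -/
theorem tw_inp (S' : Setup d F) (hout : ∀ (dh dm : ℕ) (φ : Spl dh dm d), AN.OutStmt S' φ) : Inp S' where
  tube := AN.tube_stmt S' (AN.det_stmt S' (AN.dexp_stmt S')) AN.coo_stmt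
    (AN.inj_stmt S' (AN.det_stmt S' (AN.dexp_stmt S')) AN.coo_stmt)
  dec := AN.dec_stmt S'
  bd := AN.bd_stmt S'
  gh := AN.gh_stmt S'
  cut := AN.cut_stmt S' (AN.bd_stmt S')
  frame := AN.frame_stmt S'
  out := hout

/-- **TW**, assembled -/
theorem tw_all (S : Setup d F) (hF : FiniteDimensional ℂ F) (hC : AN.Cless S)
    (hout : ∀ (S' : Setup d F) (dh dm : ℕ) (φ : Spl dh dm d), AN.OutStmt S' φ) : TWStmt S :=
  sm4 S (sh S hF hC (AN.rot_stmt S) (AN.frame_stmt S) (fun R hR O hO => tw_inp (S.rot R hR O hO) (hout _))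
    (AN.cov_stmt S (AN.std S) (AN.rot_stmt S)) (tub1 S) (nc S))

end Vale.Agent.P353.Z.AT
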