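import Vale.Agent.P353.AN.TW.Stmt


/-! # P353, all `N`, TW5: massless energy bound and Chebyshev -/

open MeasureTheory Filter Topology
open scoped ContDiff

namespace Vale.Agent.P353.Z.AT

variable {d : ℕ} {F : Type*} [NormedAddCommGroup F] [InnerProductSpace ℂ F]

/-- the mass matrices grow at most linearly -/
theorem bd443_MM (S : Setup d F) : ∃ K : ℝ, 0 ≤ K ∧ ∀ β x, ‖S.MM β x‖ ≤ K * ‖x‖ := by
  refine ⟨∑ β : Fin 16, ∑ i, ∑ A, |aw i| * ‖S.vec (S.g i * S.Gam) A β‖, by positivity,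
    fun β x => ?_⟩
  have hc : ∀ p : Fin 9 × Fin d, |x p| ≤ ‖x‖ := fun p => by
    have := PiLp.norm_apply_le x p
    rwa [Real.norm_eq_abs] at this
  have h1 : ‖S.MM β x‖ ≤ ∑ i, ∑ A, |aw i| * ‖S.vec (S.g i * S.Gam) A β‖ * ‖x‖ := by
    refine (norm_sum_le _ _).trans (Finset.sum_le_sum fun i _ => ?_)
    refine (norm_sum_le _ _).trans (Finset.sum_le_sum fun A _ => ?_)
    rw [norm_smul, Complex.norm_real, Real.norm_eq_abs, abs_mul]
    have h2 := mul_le_mul_of_nonneg_left (hc (i, A)) (abs_nonneg (aw i))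
    have h3 := mul_le_mul_of_nonneg_right h2 (norm_nonneg (S.vec (S.g i * S.Gam) A β))
    linarith
  refine h1.trans ?_
  simp only [← Finset.sum_mul]
  refine mul_le_mul_of_nonneg_right ?_ (norm_nonneg x)
  exact Finset.single_le_sum (f := fun β : Fin 16 => ∑ i, ∑ A, |aw i| *
    ‖S.vec (S.g i * S.Gam) A β‖) (fun _ _ => by positivity) (Finset.mem_univ β)

theorem bd443_int (u : Cfg d → F) (hu : Setup.Tst u) :
    Integrable (fun x => ‖x‖ ^ 2 * ‖u x‖ ^ 2) :=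
  Setup.Tst.mul_norm_sq_int (by fun_prop) hu

/-- pointwise comparison of the supercharges -/
theorem bd443_pt (S : Setup d F) {K : ℝ} (hK : ∀ β x, ‖S.MM β x‖ ≤ K * ‖x‖)
    (m : ℝ) (β : Fin 16) (u : Cfg d → F) (x : Cfg d) :
    ‖S.Q β u x‖ ^ 2 ≤ 2 * ‖S.Qm m β u x‖ ^ 2 + 2 * m ^ 2 * K ^ 2 * (‖x‖ ^ 2 * ‖u x‖ ^ 2) := by
  have h1 : S.Q β u x = S.Qm m β u x - (m : ℂ) • S.MM β x (u x) := by
    unfold Setup.Qm; rw [add_sub_cancel_right]
  have h2 : ‖(m : ℂ) • S.MM β x (u x)‖ ≤ |m| * (K * ‖x‖ * ‖u x‖) := by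
    rw [norm_smul, Complex.norm_real, Real.norm_eq_abs]
    refine mul_le_mul_of_nonneg_left ?_ (abs_nonneg m)
    exact ((S.MM β x).le_opNorm _).trans (mul_le_mul_of_nonneg_right (hK β x) (norm_nonneg _))
  have h3 := norm_sub_le (S.Qm m β u x) ((m : ℂ) • S.MM β x (u x))
  rw [← h1] at h3
  have h4 : ‖(m : ℂ) • S.MM β x (u x)‖ ^ 2 ≤ m ^ 2 * K ^ 2 * (‖x‖ ^ 2 * ‖u x‖ ^ 2) := by
    refine (pow_le_pow_left₀ (norm_nonneg _) h2 2).trans (le_of_eq ?_)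
    rw [← sq_abs m]; ring
  have h5 := pow_le_pow_left₀ (norm_nonneg _) h3 2
  nlinarith [sq_nonneg (‖S.Qm m β u x‖ - ‖(m : ℂ) • S.MM β x (u x)‖)]

theorem bd443_En (S : Setup d F) {K : ℝ} (hK : ∀ β x, ‖S.MM β x‖ ≤ K * ‖x‖)
    (m : ℝ) {u : Cfg d → F} (hu : Setup.Tst u) :
    AD.En S u ≤ 2 * S.en m u + 32 * m ^ 2 * K ^ 2 * ∫ x, ‖x‖ ^ 2 * ‖u x‖ ^ 2 := by
  have h1 : ∀ β : Fin 16, nsq (S.Q β u) ≤ 2 * nsq (S.Qm m β u) +
      2 * m ^ 2 * K ^ 2 * ∫ x, ‖x‖ ^ 2 * ‖u x‖ ^ 2 := by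
    intro β
    have hQ : Setup.Tst (S.Q β u) := hu.Q S β
    have hQm : Setup.Tst (S.Qm m β u) := U.HB.Tst_Qm S m β hu
    unfold nsq
    rw [← integral_const_mul, ← integral_const_mul, ← integral_add (hQm.norm_sq_int.const_mul 2)
      ((bd443_int u hu).const_mul _)]
    exact integral_mono hQ.norm_sq_int ((hQm.norm_sq_int.const_mul 2).add
      ((bd443_int u hu).const_mul _)) fun x => bd443_pt S hK m β u x
  have h2 := Finset.sum_le_sum fun β (_ : β ∈ Finset.univ) => h1 β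
  rw [Finset.sum_add_distrib, ← Finset.mul_sum, Finset.sum_const, Finset.card_univ,
    Fintype.card_fin, nsmul_eq_mul] at h2
  unfold AD.En Setup.en
  push_cast at h2
  linarith

/-- **TW5** -/
theorem bd5 (S : Setup d F) : BdStmt S := by
  rintro ⟨C₀, hC₀, hTW⟩
  obtain ⟨K, hK0, hK⟩ := bd443_MM S
  refine ⟨2 + 64 * K ^ 2 * C₀ + 2 * C₀, by positivity, fun R hR u hu A hA hen => ?_⟩
  have hR0 : 0 < R := by linarith
  have hRi : R * R⁻¹ = 1 := mul_inv_cancel₀ hR0.ne'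
  set m : ℝ := R⁻¹ ^ 2 with hm
  have hm0 : 0 < m := by positivity
  have hRm : R ^ 2 * m = 1 := by
    rw [hm, ← mul_pow, hRi, one_pow]
  have hm1 : m ≤ 1 := by
    have : 1 ≤ R ^ 2 := one_le_pow₀ hR
    nlinarith
  have hA0 : 0 ≤ A := by
    refine le_trans ?_ hA
    exact integral_nonneg fun x => by positivity
  set I : ℝ := ∫ x, ‖x‖ ^ 2 * ‖u x‖ ^ 2 with hI
  have hI0 : 0 ≤ I := integral_nonneg fun x => by positivity
  have h1 : m ^ 2 * I ≤ C₀ * (S.en m u + m * nsq u) := hTW m hm0 hm1 u hu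
  -- `∫ |x|² |u|² ≤ 2 C₀ A R²`
  have h2 : S.en m u ≤ A * m := by
    have := mul_le_mul_of_nonneg_right hen hm0.le
    calc S.en m u = R ^ 2 * m * S.en m u := by rw [hRm, one_mul]
      _ = R ^ 2 * S.en m u * m := by ring
      _ ≤ A * m := this
  have h3 : m ^ 2 * I ≤ 2 * C₀ * A * m := by
    have h4 : m * nsq u ≤ A * m := by nlinarith
    have h5 := mul_le_mul_of_nonneg_left (add_le_add h2 h4) hC₀
    linarith
  have h4 : I ≤ 2 * C₀ * A * R ^ 2 := by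
    have h5 := mul_le_mul_of_nonneg_left h3 (by positivity : 0 ≤ R ^ 2 * R ^ 2)
    calc I = (R ^ 2 * m) * (R ^ 2 * m) * I := by rw [hRm]; ring
      _ = R ^ 2 * R ^ 2 * (m ^ 2 * I) := by ring
      _ ≤ R ^ 2 * R ^ 2 * (2 * C₀ * A * m) := h5
      _ = 2 * C₀ * A * R ^ 2 * (R ^ 2 * m) := by ring
      _ = 2 * C₀ * A * R ^ 2 := by rw [hRm, mul_one]
  constructor
  · have h5 := bd443_En S hK m hu.1
    have h6 := mul_le_mul_of_nonneg_left h5 (by positivity : 0 ≤ R ^ 2)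
    have h7 : R ^ 2 * (2 * S.en m u + 32 * m ^ 2 * K ^ 2 * I) ≤
        2 * A + 64 * K ^ 2 * C₀ * A := by
      have h8 : R ^ 2 * (32 * m ^ 2 * K ^ 2 * I) ≤ 64 * K ^ 2 * C₀ * A := by
        have h9 := mul_le_mul_of_nonneg_left h4 (by positivity : 0 ≤ 32 * K ^ 2 * (m ^ 2 * R ^ 2))
        calc R ^ 2 * (32 * m ^ 2 * K ^ 2 * I) = 32 * K ^ 2 * (m ^ 2 * R ^ 2) * I := by ring
          _ ≤ 32 * K ^ 2 * (m ^ 2 * R ^ 2) * (2 * C₀ * A * R ^ 2) := h9
          _ = 64 * K ^ 2 * C₀ * A * ((R ^ 2 * m) * (R ^ 2 * m)) := by ring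
          _ = 64 * K ^ 2 * C₀ * A := by rw [hRm]; ring
      nlinarith
    have h8 : 0 ≤ 2 * C₀ * A := by positivity
    calc R ^ 2 * AD.En S u ≤ R ^ 2 * (2 * S.en m u + 32 * m ^ 2 * K ^ 2 * I) := h6
      _ ≤ 2 * A + 64 * K ^ 2 * C₀ * A := h7
      _ ≤ (2 + 64 * K ^ 2 * C₀ + 2 * C₀) * A := by linarith
  · intro L hL
    have hLR : 0 < (L * R) ^ 2 := by positivity
    have h5 : (L * R) ^ 2 * AD.mas u {x | L * R ≤ ‖x‖} ≤ I := by
      unfold AD.mas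
      rw [← integral_const_mul]
      have hms : MeasurableSet {x : Cfg d | L * R ≤ ‖x‖} :=
        measurableSet_le measurable_const measurable_norm
      calc ∫ x in {x | L * R ≤ ‖x‖}, (L * R) ^ 2 * ‖u x‖ ^ 2
          ≤ ∫ x in {x | L * R ≤ ‖x‖}, ‖x‖ ^ 2 * ‖u x‖ ^ 2 := by
            refine setIntegral_mono_on (hu.1.norm_sq_int.integrableOn.const_mul _)
              (bd443_int u hu.1).integrableOn hms fun x hx => ?_
            exact mul_le_mul_of_nonneg_right (pow_le_pow_left₀ (by positivity) hx 2) (by positivity)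
        _ ≤ I := setIntegral_le_integral (bd443_int u hu.1)
            (Eventually.of_forall fun x => by positivity)
    rw [le_div_iff₀ (by positivity)]
    have h6 : AD.mas u {x | L * R ≤ ‖x‖} * L ^ 2 * R ^ 2 ≤ 2 * C₀ * A * R ^ 2 := by
      calc AD.mas u {x | L * R ≤ ‖x‖} * L ^ 2 * R ^ 2 = (L * R) ^ 2 * AD.mas u {x | L * R ≤ ‖x‖} := by ring
        _ ≤ I := h5
        _ ≤ 2 * C₀ * A * R ^ 2 := h4
    have h7 := le_of_mul_le_mul_right h6 (by positivity : 0 < R ^ 2)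
    have h8 : 0 ≤ (2 + 64 * K ^ 2 * C₀) * A := by positivity
    linarith

end Vale.Agent.P353.Z.AT
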