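import Vale.Agent.P353.AN.C.Stmt
import Vale.Agent.P353.AN.D.Defs
import Vale.Agent.P353.AN.H.Defs

/-! # P353, all `N`, block TW (helper714): tightness at the scale `m^{-1/2}`

`en_m u = ∑_β ‖Q^m_β u‖²`. Output: `m² ∫ |x|² |u|² ≤ C (en_m u + m ‖u‖²)` for gauge invariant test functions, `0 < m ≤ 1`.
A prover delivers `theorem <name> (S : Setup d F) … : XStmt S` in `Vale/Agent/P353/AN/TW/<File>.lean`. -/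

open MeasureTheory Filter Topology
open scoped ContDiff

namespace Vale.Agent.P353.Z.AT

variable {d dh dm : ℕ} {F : Type*} [NormedAddCommGroup F] [InnerProductSpace ℂ F]

/-- energy with mass in a set -/
noncomputable def enm (S : Setup d F) (m : ℝ) (u : Cfg d → F) (A : Set (Cfg d)) : ℝ :=
  ∑ β, ∫ x in A, ‖S.Qm m β u x‖ ^ 2

/-- everything the local estimate needs from blocks A and C, in the frame `S'` -/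
structure Inp (S' : Setup d F) : Prop where
  tube : AN.TubeStmt S'
  dec : AN.DecStmt S'
  bd : AN.BdStmt S'
  gh : AN.GhStmt S'
  cut : AN.CutStmt S'
  frame : AN.FrameStmt S'
  out : ∀ (dh dm : ℕ) (φ : Spl dh dm d), AN.OutStmt S' φ

/-- **TW1** local estimate in one tube. `S' = S.rot R hR O hO`, `u'(z) = u(rox Rᵀ Oᵀ z)` (so `u = u' ∘ rox R O`; by `RotStmt` `u'` is a gauge
invariant test function of `S'`, the masses agree, and `Q^m_β u (x) = (S'.Q β u' + m S'.Mx N' β u')(rox R O x)`, `N' = rotN R (N0 S)`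
(`FrameStmt S`, linearity of `S.MM`)).
PROOF. Let `ε` be smaller than the `ε0`'s of `OutStmt S'` (mass matrices `N'`), `TubeStmt`, `CutStmt`, `BdStmt`, and `4ε < σ`; `ρ = ρ₀`.
`TubeStmt` for `(ε/2, ρ)` gives `c', δ`, for `(ε, ρ)` it gives `c`. On the slice let `χ(y,w) = χ₀((y - sY)/s) χ₀(w/s)`, `= 1` for `‖·‖ ≤ ε/2`,
support in `‖·‖ ≤ ¾ε`, `|∇χ| ≤ C/s`; `v = χ·res u'` is `Tst2` (`GhStmt`, `BdStmt`: `det ≠ 0`), `Sup2 Y ε s v`.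
(1) mass: `mas u {rox x ∈ ball (sY) (δs)} ≤ ∫_{Tube(ε/2)}‖u'‖² = c'∫_{Nb(ε/2)}‖res u'‖² ≤ c' ns2 v` (`‖u'‖` is constant along the gauge directions:
`Z/U/GrpExp` `gx983_norm`, as in `AN/A/Norm.lean`).
(2) energy: `QS φ N' m β v = χ·QS φ N' m β (res u') + [Qs_β,χ]res u'` (`CutStmt`; the mass terms commute with `χ`),
`QS φ N' m β (res u') = res(Q^m_β u')` (`FrameStmt S'`, last part, with `DecStmt`), so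
`ES v ≤ 2∑_β∫_{Nb(ε)}‖res(Q^m_βu')‖² + (C/s²)∫_{Nb(ε)}‖res u'‖² ≤ C(enm + s⁻² mas)` on the tube `⊆` shell (`‖tub a p‖ = ‖emb p‖`,
`|‖emb p‖ - s‖Y‖| ≤ 2εs`; `Q^m_βu` is gauge invariant).
(3) `OutStmt` (1), (6): `m²s²ns2 v ≤ C(EH v + m ns2 v) ≤ C(ES v + (s⁻² + m²/s + m)ns2 v)`, `m²/s ≤ m`. -/
def TubStmt (S : Setup d F) : Prop := FiniteDimensional ℂ F → AN.RotStmt S → AN.FrameStmt S →
  ∀ (R : Matrix (Fin 9) (Fin 9) ℝ) (hR : R * R.transpose = 1) (O : Matrix (Fin d) (Fin d) ℝ) (hO : O * O.transpose = 1),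
  Inp (S.rot R hR O hO) → ∀ (dh dm : ℕ) (φ : Spl dh dm d) (Y : Cfg dh), AN.Std (S.rot R hR O hO) φ Y → 0 < dm → Y ≠ 0 →
  ∀ σ : ℝ, 0 < σ → ∃ δ R₁ C : ℝ, 0 < δ ∧ δ ≤ σ ∧ 1 ≤ R₁ ∧ 0 ≤ C ∧ ∀ s : ℝ, R₁ ≤ s → ∀ m : ℝ, 0 < m → m ≤ 1 → ∀ u, AD.GInv S u →
    m ^ 2 * s ^ 2 * AD.mas u {x | rox R O x ∈ Metric.ball (s • emb φ Y 0) (δ * s)} ≤
      C * (enm S m u (AD.shl d ((‖Y‖ - σ) * s) ((‖Y‖ + σ) * s)) +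
        (1 / s ^ 2 + m) * AD.mas u (AD.shl d ((‖Y‖ - σ) * s) ((‖Y‖ + σ) * s)))

/-- **TW2** the non commuting part of a shell. PROOF. `V_m ≥ ½V - Cm²|x|²` (`U.SqStmt`: `GG = F + 2mx`, `(a+b)² ≥ ½a² - b²`; or
`|6mκ det3| ≤ Cm|x|√V`) and `V_m ≥ 0` everywhere, so `V_m ≥ ¼ηs⁴` on the set, `s ≥ R₁(η)`. Radial cutoff `χ = 1` on `s ≤ |x| ≤ 2s`, support in
`(s/2,4s)`, `|∇χ| ≤ C/s`: `en_m(χu) ≤ 2 enm + Cs⁻²mas`; energy formula `en_m(w) = 8‖∇w‖² + 16∫V_m‖w‖² + Re⟨w,(16Fx - 12m FG)w⟩`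
(`Z/U/En.lean`) `≥ 4ηs⁴∫_{set}‖u‖² - Cs‖χu‖²`. Multiply by `m²s^{-2} ≤ 1`. -/
def NcStmt (S : Setup d F) : Prop := FiniteDimensional ℂ F → ∀ η : ℝ, 0 < η → ∃ R₁ C : ℝ, 1 ≤ R₁ ∧ 0 ≤ C ∧
  ∀ s : ℝ, R₁ ≤ s → ∀ m : ℝ, 0 < m → m ≤ 1 → ∀ u, AD.GInv S u →
    m ^ 2 * s ^ 2 * AD.mas u {x | s ≤ ‖x‖ ∧ ‖x‖ ≤ 2 * s ∧ η * s ^ 4 ≤ S.V x} ≤
      C * (enm S m u (AD.shl d (s / 2) (4 * s)) + (1 / s ^ 2 + m) * AD.mas u (AD.shl d (s / 2) (4 * s)))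

/-- **TW3** one shell. PROOF: `CovStmt S` with `ε = 1`, `L = 2` and `P … r δ :=` (`δ ≤ 1/4` and the estimate of TW1 holds with `σ = 1/4`, this `δ`, some
`R₁`, `C`); a ball that meets `{s ≤ |x| ≤ 2s}` has `3/4 ≤ ‖Y‖ ≤ 9/4`, so its shell is inside `(s/2, 4s)`; TW2 for the rest. -/
def ShStmt (S : Setup d F) : Prop := FiniteDimensional ℂ F → AN.Cless S → AN.RotStmt S → AN.FrameStmt S →
  (∀ (R : Matrix (Fin 9) (Fin 9) ℝ) (hR : R * R.transpose = 1) (O : Matrix (Fin d) (Fin d) ℝ) (hO : O * O.transpose = 1),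
    Inp (S.rot R hR O hO)) → AN.CovStmt S → TubStmt S → NcStmt S →
  ∃ R₁ C : ℝ, 1 ≤ R₁ ∧ 0 ≤ C ∧ ∀ s : ℝ, R₁ ≤ s → ∀ m : ℝ, 0 < m → m ≤ 1 → ∀ u, AD.GInv S u →
    m ^ 2 * s ^ 2 * AD.mas u {x | s ≤ ‖x‖ ∧ ‖x‖ ≤ 2 * s} ≤
      C * (enm S m u (AD.shl d (s / 2) (4 * s)) + (1 / s ^ 2 + m) * AD.mas u (AD.shl d (s / 2) (4 * s)))

/-- **TW** output -/
def TWStmt (S : Setup d F) : Prop := ∃ C : ℝ, 0 ≤ C ∧ ∀ m : ℝ, 0 < m → m ≤ 1 → ∀ u, AD.GInv S u →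
  m ^ 2 * (∫ x, ‖x‖ ^ 2 * ‖u x‖ ^ 2) ≤ C * (S.en m u + m * nsq u)

/-- **TW4** summation over dyadic scales (`hS` is the conclusion of TW3). PROOF: `s_k = 2^k R₁ m^{-1/2} ≥ R₁`, `k ≥ 0`: `1/s_k² ≤ m`;
`∫_{|x| ≥ s_0} m²|x|²|u|² ≤ ∑_k 4m²s_k² mas u {s_k ≤ |x| ≤ 2s_k}` (finite sum, compact support); the shells `(s_k/2, 4s_k)` have overlap `≤ 3`
(bounded finite overlap); `∫_{|x| ≤ s_0} m²|x|²|u|² ≤ m²s_0²‖u‖² = R₁² m‖u‖²`. -/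
def SumStmt (S : Setup d F) : Prop := (∃ R₁ C : ℝ, 1 ≤ R₁ ∧ 0 ≤ C ∧ ∀ s : ℝ, R₁ ≤ s → ∀ m : ℝ, 0 < m → m ≤ 1 → ∀ u, AD.GInv S u →
    m ^ 2 * s ^ 2 * AD.mas u {x | s ≤ ‖x‖ ∧ ‖x‖ ≤ 2 * s} ≤
      C * (enm S m u (AD.shl d (s / 2) (4 * s)) + (1 / s ^ 2 + m) * AD.mas u (AD.shl d (s / 2) (4 * s)))) → TWStmt S

/-- **TW5** massless energy bound: `∑‖Q_βu‖² ≤ 2en_m(u) + C m²∫|x|²|u|²`, hence for bounded sequences at scale `R` (`m = R^{-2}`)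
`R² En(u)` is bounded and the mass outside `LR` is `≤ C/L²`. PROOF: `Q = Q^m - mM`, `‖M_β(x)‖ ≤ C|x|`; TW; Chebyshev. -/
def BdStmt (S : Setup d F) : Prop := TWStmt S → ∃ C : ℝ, 0 ≤ C ∧ ∀ R : ℝ, 1 ≤ R → ∀ u, AD.GInv S u → ∀ A : ℝ,
  nsq u ≤ A → R ^ 2 * S.en (R⁻¹ ^ 2) u ≤ A → R ^ 2 * AD.En S u ≤ C * A ∧
    ∀ L : ℝ, 0 < L → AD.mas u {x | L * R ≤ ‖x‖} ≤ C * A / L ^ 2

end Vale.Agent.P353.Z.AT
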