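import Vale.Agent.P353.AN.TW.Stmt

/-! # P353, all `N`, block TW3: one shell -/

open MeasureTheory Filter Topology
open scoped ContDiff

namespace Vale.Agent.P353.Z.AT

variable {d dh dm : ℕ} {F : Type*} [NormedAddCommGroup F] [InnerProductSpace ℂ F]

/-- the norm of a slice point with `w = 0` -/
theorem tw3_norm_emb (φ : Spl dh dm d) (y : Cfg dh) : ‖emb φ y (0 : Wsp dm)‖ = ‖y‖ := by
  rw [EuclideanSpace.norm_eq, EuclideanSpace.norm_eq]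
  congr 1
  rw [Fintype.sum_prod_type, Fintype.sum_prod_type]
  refine Finset.sum_congr rfl fun i _ => ?_
  rw [← φ.sum_comp, Fintype.sum_sum_type]
  have h1 : ∀ A : Fin dh, emb φ y (0 : Wsp dm) (i, φ (Sum.inl A)) = y (i, A) := by
    intro A
    simp [emb]
  have h2 : ∀ B : Fin dm, emb φ y (0 : Wsp dm) (i, φ (Sum.inr B)) = 0 := by
    intro B
    simp only [emb, Equiv.symm_apply_apply, Sum.elim_inr]
    refine Fin.lastCases ?_ (fun j => ?_) i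
    · exact Fin.lastCases_last
    · simp
  simp [h1, h2]

theorem tw3_mas_mono {v : Cfg d → F} (hv : Setup.Tst v) {A B : Set (Cfg d)} (h : A ⊆ B) :
    ∫ x in A, ‖v x‖ ^ 2 ≤ ∫ x in B, ‖v x‖ ^ 2 :=
  setIntegral_mono_set hv.norm_sq_int.integrableOn (Eventually.of_forall fun x => sq_nonneg ‖v x‖)
    (Filter.Eventually.of_forall h)

omit [InnerProductSpace ℂ F] in
theorem tw3_mas_nonneg (v : Cfg d → F) (A : Set (Cfg d)) : 0 ≤ ∫ x in A, ‖v x‖ ^ 2 :=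
  integral_nonneg fun x => sq_nonneg ‖v x‖

theorem tw3_enm_mono (S : Setup d F) (m : ℝ) {u : Cfg d → F} (hu : Setup.Tst u) {A B : Set (Cfg d)}
    (h : A ⊆ B) : enm S m u A ≤ enm S m u B :=
  Finset.sum_le_sum fun β _ => tw3_mas_mono (U.HB.Tst_Qm S m β hu) h

/-- finite subadditivity of the mass -/
theorem tw3_union {v : Cfg d → F} (hv : Setup.Tst v) {n : ℕ} (A B : Set (Cfg d)) (D : Fin n → Set (Cfg d))
    (J : Finset (Fin n)) (h : A ⊆ B ∪ ⋃ k ∈ J, D k) :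
    ∫ x in A, ‖v x‖ ^ 2 ≤ (∫ x in B, ‖v x‖ ^ 2) + ∑ k ∈ J, ∫ x in D k, ‖v x‖ ^ 2 := by
  have hi := hv.norm_sq_int
  have e : ∀ E : Set (Cfg d), ENNReal.ofReal (∫ x in E, ‖v x‖ ^ 2) = ∫⁻ x in E, ENNReal.ofReal (‖v x‖ ^ 2) :=
    fun E => ofReal_integral_eq_lintegral_ofReal hi.integrableOn
      (Eventually.of_forall fun x => sq_nonneg ‖v x‖)
  have h0 : ∫⁻ x in ⋃ k ∈ J, D k, ENNReal.ofReal (‖v x‖ ^ 2) ≤
      ∑ k ∈ J, ∫⁻ x in D k, ENNReal.ofReal (‖v x‖ ^ 2) := by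
    clear h
    classical
    induction J using Finset.induction_on with
    | empty => simp
    | insert k J hk ih =>
      rw [Finset.set_biUnion_insert, Finset.sum_insert hk]
      exact (lintegral_union_le _ _ _).trans (add_le_add le_rfl ih)
  have h1 : ∫⁻ x in A, ENNReal.ofReal (‖v x‖ ^ 2) ≤
      (∫⁻ x in B, ENNReal.ofReal (‖v x‖ ^ 2)) + ∑ k ∈ J, ∫⁻ x in D k, ENNReal.ofReal (‖v x‖ ^ 2) :=
    (lintegral_mono_set h).trans ((lintegral_union_le _ _ _).trans (add_le_add le_rfl h0))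
  have hn : ∀ E : Set (Cfg d), 0 ≤ ∫ x in E, ‖v x‖ ^ 2 := tw3_mas_nonneg v
  rw [← ENNReal.ofReal_le_ofReal_iff (add_nonneg (hn _) (Finset.sum_nonneg fun k _ => hn _)), e,
    ENNReal.ofReal_add (hn _) (Finset.sum_nonneg fun k _ => hn _), e,
    ENNReal.ofReal_sum_of_nonneg fun k _ => hn _]
  simpa only [e] using h1

/-- the estimate in one ball (parameter of the cover) -/
def Tw3P (S : Setup d F) (R : Matrix (Fin 9) (Fin 9) ℝ) (O : Matrix (Fin d) (Fin d) ℝ) (dh dm : ℕ)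
    (φ : Spl dh dm d) (Y : Cfg dh) (_ δ : ℝ) : Prop :=
  δ ≤ 1 / 4 ∧ ∃ R₁ C : ℝ, 1 ≤ R₁ ∧ 0 ≤ C ∧ ∀ s : ℝ, R₁ ≤ s → ∀ m : ℝ, 0 < m → m ≤ 1 → ∀ u, AD.GInv S u →
    m ^ 2 * s ^ 2 * AD.mas u {x | rox R O x ∈ Metric.ball (s • emb φ Y 0) (δ * s)} ≤
      C * (enm S m u (AD.shl d ((‖Y‖ - 1 / 4) * s) ((‖Y‖ + 1 / 4) * s)) +
        (1 / s ^ 2 + m) * AD.mas u (AD.shl d ((‖Y‖ - 1 / 4) * s) ((‖Y‖ + 1 / 4) * s)))

theorem sh (S : Setup d F) : ShStmt S := by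
  intro hF hC hRot hFr hInp hCov hTub hNc
  classical
  obtain ⟨n, η, hη, Rr, Oo, dhs, dms, φs, ys, rs, δs, hk, hcov⟩ := hCov hC (Tw3P S) (by
    intro R hR O hO dh dm φ Y hStd hdm hY
    obtain ⟨δ, R₁, C, h1, h2, h3, h4, h5⟩ := hTub hF hRot hFr R hR O hO (hInp R hR O hO) dh dm φ Y hStd
      hdm hY (1 / 4) (by norm_num)
    exact ⟨1, δ, one_pos, h1, h2, R₁, C, h3, h4, h5⟩) 1 2 one_pos (by norm_num)
  obtain ⟨Rn, Cn, hRn, hCn, hn⟩ := hNc hF η hη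
  have hk' : ∀ k, ∃ R₁ C : ℝ, 1 ≤ R₁ ∧ 0 ≤ C ∧ ∀ s : ℝ, R₁ ≤ s → ∀ m : ℝ, 0 < m → m ≤ 1 → ∀ u, AD.GInv S u →
      m ^ 2 * s ^ 2 * AD.mas u {x | rox (Rr k) (Oo k) x ∈ Metric.ball (s • emb (φs k) (ys k) 0) (δs k * s)} ≤
        C * (enm S m u (AD.shl d ((‖ys k‖ - 1 / 4) * s) ((‖ys k‖ + 1 / 4) * s)) +
          (1 / s ^ 2 + m) * AD.mas u (AD.shl d ((‖ys k‖ - 1 / 4) * s) ((‖ys k‖ + 1 / 4) * s))) := fun k => by
    obtain ⟨_, _, _, _, _, _, h⟩ := hk k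
    exact h
  have hδ : ∀ k, δs k ≤ 1 / 4 := fun k => by
    obtain ⟨_, _, _, _, _, h, _⟩ := hk k
    exact h
  have hrox : ∀ k x, ‖rox (Rr k) (Oo k) x‖ = ‖x‖ := fun k x => by
    obtain ⟨hR, hO, _⟩ := hk k
    exact (hRot (Rr k) hR (Oo k) hO).1 x
  choose Rk Ck hRk hCk hbk using hk'
  refine ⟨Rn + ∑ k, Rk k, Cn + ∑ k, Ck k, ?_, ?_, ?_⟩
  · have : 0 ≤ ∑ k, Rk k := Finset.sum_nonneg fun k _ => by linarith [hRk k]
    linarith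
  · exact add_nonneg hCn (Finset.sum_nonneg fun k _ => hCk k)
  intro s hs m hm hm1 u hu
  have hsum : 0 ≤ ∑ k, Rk k := Finset.sum_nonneg fun k _ => by linarith [hRk k]
  have hsn : Rn ≤ s := by linarith
  have hs1 : 1 ≤ s := by linarith
  have hs0 : 0 < s := by linarith
  have hsk : ∀ k, Rk k ≤ s := fun k => by
    have := Finset.single_le_sum (f := Rk) (fun k _ => by linarith [hRk k]) (Finset.mem_univ k)
    linarith
  -- the balls that meet the shell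
  set J : Finset (Fin n) := Finset.univ.filter fun k =>
    ∃ x : Cfg d, s ≤ ‖x‖ ∧ ‖x‖ ≤ 2 * s ∧ rox (Rr k) (Oo k) x ∈ Metric.ball (s • emb (φs k) (ys k) 0) (δs k * s)
    with hJ
  set Y0 : ℝ := enm S m u (AD.shl d (s / 2) (4 * s)) + (1 / s ^ 2 + m) * AD.mas u (AD.shl d (s / 2) (4 * s)) with hY0
  have hY0n : 0 ≤ Y0 := by
    have h1 : 0 ≤ enm S m u (AD.shl d (s / 2) (4 * s)) := Finset.sum_nonneg fun β _ => tw3_mas_nonneg _ _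
    have h2 : 0 ≤ AD.mas u (AD.shl d (s / 2) (4 * s)) := tw3_mas_nonneg _ _
    positivity
  have hgood : ∀ k ∈ J, m ^ 2 * s ^ 2 *
      AD.mas u {x | rox (Rr k) (Oo k) x ∈ Metric.ball (s • emb (φs k) (ys k) 0) (δs k * s)} ≤ Ck k * Y0 := by
    intro k hkJ
    obtain ⟨x, hx1, hx2, hx3⟩ := (Finset.mem_filter.1 hkJ).2
    have h1 : ‖s • emb (φs k) (ys k) (0 : Wsp (dms k))‖ = s * ‖ys k‖ := by
      rw [norm_smul, tw3_norm_emb, Real.norm_of_nonneg hs0.le]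
    have h2 : ‖rox (Rr k) (Oo k) x - s • emb (φs k) (ys k) 0‖ < 1 / 4 * s := by
      rw [mem_ball_iff_norm] at hx3
      exact hx3.trans_le (mul_le_mul_of_nonneg_right (hδ k) hs0.le)
    have h3 := abs_norm_sub_norm_le (rox (Rr k) (Oo k) x) (s • emb (φs k) (ys k) (0 : Wsp (dms k)))
    rw [h1, hrox k x] at h3
    have h4 := abs_lt.1 (lt_of_le_of_lt h3 h2)
    have hsub : AD.shl d ((‖ys k‖ - 1 / 4) * s) ((‖ys k‖ + 1 / 4) * s) ⊆ AD.shl d (s / 2) (4 * s) := by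
      intro z hz
      have hz' : (‖ys k‖ - 1 / 4) * s < ‖z‖ ∧ ‖z‖ < (‖ys k‖ + 1 / 4) * s := hz
      refine ⟨?_, ?_⟩
      · nlinarith [hz'.1, h4.1, h4.2]
      · nlinarith [hz'.2, h4.1, h4.2]
    refine (hbk k s (hsk k) m hm hm1 u hu).trans (mul_le_mul_of_nonneg_left ?_ (hCk k))
    have hc : 0 ≤ 1 / s ^ 2 + m := by positivity
    exact add_le_add (tw3_enm_mono S m hu.1 hsub) (mul_le_mul_of_nonneg_left (tw3_mas_mono hu.1 hsub) hc)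
  have hcover : {x : Cfg d | s ≤ ‖x‖ ∧ ‖x‖ ≤ 2 * s} ⊆ {x | s ≤ ‖x‖ ∧ ‖x‖ ≤ 2 * s ∧ η * s ^ 4 ≤ S.V x} ∪
      ⋃ k ∈ J, {x | rox (Rr k) (Oo k) x ∈ Metric.ball (s • emb (φs k) (ys k) 0) (δs k * s)} := by
    intro x hx
    have hx' : s ≤ ‖x‖ ∧ ‖x‖ ≤ 2 * s := hx
    rcases le_total (η * s ^ 4) (S.V x) with h | h
    · exact Or.inl ⟨hx'.1, hx'.2, h⟩
    · obtain ⟨k, hk1⟩ := hcov s x hs0 (by linarith [hx'.1]) hx'.2 h
      refine Or.inr (Set.mem_biUnion (x := k) ?_ hk1)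
      exact Finset.mem_coe.2 (Finset.mem_filter.2 ⟨Finset.mem_univ _, x, hx'.1, hx'.2, hk1⟩)
  have hmain := tw3_union hu.1 _ _ _ J hcover
  have hms : 0 ≤ m ^ 2 * s ^ 2 := by positivity
  calc m ^ 2 * s ^ 2 * AD.mas u {x | s ≤ ‖x‖ ∧ ‖x‖ ≤ 2 * s}
      ≤ m ^ 2 * s ^ 2 * (AD.mas u {x | s ≤ ‖x‖ ∧ ‖x‖ ≤ 2 * s ∧ η * s ^ 4 ≤ S.V x} +
          ∑ k ∈ J, AD.mas u {x | rox (Rr k) (Oo k) x ∈ Metric.ball (s • emb (φs k) (ys k) 0) (δs k * s)}) :=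
        mul_le_mul_of_nonneg_left hmain hms
    _ = m ^ 2 * s ^ 2 * AD.mas u {x | s ≤ ‖x‖ ∧ ‖x‖ ≤ 2 * s ∧ η * s ^ 4 ≤ S.V x} +
          ∑ k ∈ J, m ^ 2 * s ^ 2 *
            AD.mas u {x | rox (Rr k) (Oo k) x ∈ Metric.ball (s • emb (φs k) (ys k) 0) (δs k * s)} := by
        rw [mul_add, Finset.mul_sum]
    _ ≤ Cn * Y0 + ∑ k ∈ J, Ck k * Y0 :=
        add_le_add (hn s hsn m hm hm1 u hu) (Finset.sum_le_sum hgood)
    _ ≤ Cn * Y0 + ∑ k, Ck k * Y0 := by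
        gcongr
        · intro k _ _
          exact mul_nonneg (hCk k) hY0n
        · exact Finset.subset_univ J
    _ = (Cn + ∑ k, Ck k) * Y0 := by rw [add_mul, Finset.sum_mul]

end Vale.Agent.P353.Z.AT
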