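import Vale.Agent.P353.AN.TW.Stmt
import Vale.Agent.P353.AN.A.Norm
import Vale.Agent.P353.Z.U.Grp

/-! # P353, all `N`, block TW (helper554): local estimate in one tube, arbitrary frame and mass matrices -/

open MeasureTheory Filter Topology
open scoped ContDiff

namespace Vale.Agent.P353.Z.AT

variable {d dh dm : ℕ} {F : Type*} [NormedAddCommGroup F] [InnerProductSpace ℂ F]

/-- supercharge with mass matrices `N` -/
noncomputable def qn (S : Setup d F) (N : Fin 9 → Matrix (Fin 16) (Fin 16) ℂ) (m : ℝ) (β : Fin 16) (u : Cfg d → F)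
    (x : Cfg d) : F :=
  S.Q β u x + (m : ℂ) • S.Mx N β x (u x)

private lemma tl_contDiff_Mx (S : Setup d F) (N : Fin 9 → Matrix (Fin 16) (Fin 16) ℂ) (β : Fin 16) :
    ContDiff ℝ ∞ (S.Mx N β) := by
  unfold Setup.Mx
  refine ContDiff.sum fun i _ => ContDiff.sum fun A _ => ?_
  exact (Setup.contDiff_ofReal (Setup.contDiff_coord _)).smul contDiff_const

lemma tst_qn (S : Setup d F) (N : Fin 9 → Matrix (Fin 16) (Fin 16) ℂ) (m : ℝ) (β : Fin 16) {u : Cfg d → F}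
    (hu : Setup.Tst u) : Setup.Tst (qn S N m β u) :=
  (hu.Q S β).add (U.HB.Tst_csmul _ (Setup.Tst.clm (tl_contDiff_Mx S N β) hu))

private lemma tl_QS_eq (S : Setup d F) (φ : Spl dh dm d) (N : Fin 9 → Matrix (Fin 16) (Fin 16) ℂ) (m : ℝ) (β : Fin 16)
    (v : Cfg dh → Wsp dm → F) (y : Cfg dh) (w : Wsp dm) :
    S.QS φ N m β v y w = AN.Qs S φ β v y w + (m : ℂ) • (S.Mh φ N β y + S.Mw φ N β w) (v y w) := by
  unfold Setup.QS Setup.Qhm AN.Qs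
  rw [_root_.add_apply, smul_add]
  abel

private lemma tl_QS_zero (S : Setup d F) (φ : Spl dh dm d) (N : Fin 9 → Matrix (Fin 16) (Fin 16) ℂ) (m : ℝ)
    (β : Fin 16) {v : Cfg dh → Wsp dm → F} {y : Cfg dh} {w : Wsp dm}
    (h : (fun p : Cfg dh × Wsp dm => v p.1 p.2) =ᶠ[𝓝 (y, w)] fun _ => 0) : S.QS φ N m β v y w = 0 := by
  have h0 : v y w = 0 := h.eq_of_nhds
  have h1 : ∀ i A, py i A v y w = 0 := by
    intro i A
    have hc : Tendsto (fun y' : Cfg dh => (y', w)) (𝓝 y) (𝓝 (y, w)) :=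
      (Continuous.prodMk continuous_id continuous_const).tendsto y
    have h3 : (fun y' => v y' w) =ᶠ[𝓝 y] fun _ => 0 := hc.eventually h
    unfold py pd
    rw [h3.fderiv_eq]
    simp
  have h2 : ∀ j B, pw j B v y w = 0 := by
    intro i A
    have hc : Tendsto (fun w' : Wsp dm => (y, w')) (𝓝 w) (𝓝 (y, w)) :=
      (Continuous.prodMk continuous_const continuous_id).tendsto w
    have h3 : (fun w' => v y w') =ᶠ[𝓝 w] fun _ => 0 := hc.eventually h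
    unfold pw
    rw [show v y = fun w' => v y w' from rfl, h3.fderiv_eq]
    simp
  simp [Setup.QS, Setup.Qhm, Setup.Qh, Setup.Q1, Setup.Qr, h0, h1, h2]

private lemma tl_norm_ro (S : Setup d F) (a : Fin d → ℝ) (x : Cfg d) :
    ‖ro (NormedSpace.exp (S.adm a)) x‖ = ‖x‖ := by
  have h := (U.grpCpt S).2.2.2.2.2 _ (U.exp_mem S a 1) x
  rwa [one_smul] at h

private lemma tl_norm_emb (φ : Spl dh dm d) (y : Cfg dh) (w : Wsp dm) :
    ‖emb φ y w‖ ^ 2 = ‖y‖ ^ 2 + ‖w‖ ^ 2 := by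
  rw [EuclideanSpace.norm_sq_eq, EuclideanSpace.norm_sq_eq, EuclideanSpace.norm_sq_eq]
  rw [Fintype.sum_prod_type, Fintype.sum_prod_type, Fintype.sum_prod_type]
  have h : ∀ i : Fin 9, ∑ A, ‖emb φ y w (i, A)‖ ^ 2 = (∑ A, ‖y (i, A)‖ ^ 2) + ∑ B, ‖wt w i B‖ ^ 2 := by
    intro i
    rw [← φ.sum_comp, Fintype.sum_sum_type]
    simp [emb, wt]
  simp only [h, Finset.sum_add_distrib]
  congr 1
  rw [Fin.sum_univ_castSucc]
  have h9 : ∑ B, ‖wt w (Fin.last 8) B‖ ^ 2 = 0 := Finset.sum_eq_zero fun B _ => by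
    unfold wt
    rw [Fin.lastCases_last]
    norm_num
  rw [h9, add_zero]
  refine Finset.sum_congr rfl fun j _ => Finset.sum_congr rfl fun B _ => ?_
  unfold wt
  rw [Fin.lastCases_castSucc]

private lemma tl_norm_le {a b t : ℝ} (ha : 0 ≤ a) (hb : 0 ≤ b) (ht : 0 < t) (h1 : a < t) (h2 : b < t) {c : ℝ}
    (h : c ^ 2 = a ^ 2 + b ^ 2) : c < 2 * t := by
  nlinarith [mul_self_nonneg (a - t), mul_self_nonneg (b - t), mul_pos ht ht]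

private lemma tl_Nb_emb (φ : Spl dh dm d) (Y : Cfg dh) {s ε : ℝ} (hs : 0 < s) (hε : 0 < ε)
    {p : Cfg dh × Wsp dm} (hp : p ∈ AN.Nb Y dm s ε) :
    |‖emb φ p.1 p.2‖ - s * ‖Y‖| < 2 * (ε * s) := by
  have h1 : emb φ p.1 p.2 - s • emb φ Y 0 = emb φ (p.1 - s • Y) p.2 := by
    ext q
    simp only [emb, PiLp.sub_apply, PiLp.smul_apply, smul_eq_mul]
    rcases h : φ.symm q.2 with A | B
    · simp
    · simp only [Sum.elim_inr]
      rcases q with ⟨i, C⟩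
      refine Fin.lastCases ?_ (fun j => ?_) i
      · simp only [Fin.lastCases_last]
        ring
      · simp
  have h2 : ‖s • emb φ Y 0‖ = s * ‖Y‖ := by
    rw [norm_smul, Real.norm_eq_abs, abs_of_pos hs]
    congr 1
    have := tl_norm_emb φ Y (0 : Wsp dm)
    rw [norm_zero, zero_pow two_ne_zero, add_zero] at this
    exact (sq_eq_sq₀ (norm_nonneg _) (norm_nonneg _)).1 this
  rw [← h2]
  refine (abs_norm_sub_norm_le _ _).trans_lt ?_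
  rw [h1]
  exact tl_norm_le (norm_nonneg _) (norm_nonneg _) (mul_pos hε hs) hp.1 hp.2 (tl_norm_emb φ _ _)

private lemma tl_tube_shl (S : Setup d F) (φ : Spl dh dm d) (Y : Cfg dh) {s ε ρ σ : ℝ} (hs : 0 < s) (hε : 0 < ε)
    (h : 2 * ε ≤ σ) : AN.Tube S φ Y s ε ρ ⊆ AD.shl d ((‖Y‖ - σ) * s) ((‖Y‖ + σ) * s) := by
  rintro x ⟨a, -, p, hp, rfl⟩
  have h1 : ‖AN.tub S φ a p‖ = ‖emb φ p.1 p.2‖ := tl_norm_ro S _ _
  have h2 := abs_lt.1 (tl_Nb_emb φ Y hs hε hp)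
  have h3 : 2 * (ε * s) ≤ σ * s := by nlinarith
  constructor
  · show (‖Y‖ - σ) * s < ‖AN.tub S φ a p‖
    rw [h1]; nlinarith [h2.1]
  · show ‖AN.tub S φ a p‖ < (‖Y‖ + σ) * s
    rw [h1]; nlinarith [h2.2]

private lemma tl_meas_Nb (Y : Cfg dh) (dm : ℕ) (s ε : ℝ) : MeasurableSet (AN.Nb Y dm s ε) := by
  have e1 : IsOpen {p : Cfg dh × Wsp dm | ‖p.1 - s • Y‖ < ε * s} :=
    isOpen_lt (continuous_fst.sub continuous_const).norm continuous_const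
  have e2 : IsOpen {p : Cfg dh × Wsp dm | ‖p.2‖ < ε * s} :=
    isOpen_lt continuous_snd.norm continuous_const
  exact (e1.inter e2).measurableSet

private lemma tl_Nb_sub (Y : Cfg dh) (dm : ℕ) (s ε : ℝ) :
    AN.Nb Y dm s ε ⊆ Metric.closedBall (s • Y) (ε * s) ×ˢ Metric.closedBall (0 : Wsp dm) (ε * s) := by
  rintro p ⟨h1, h2⟩
  exact ⟨mem_closedBall_iff_norm.2 h1.le, mem_closedBall_zero_iff.2 h2.le⟩

private lemma tl_cpt (Y : Cfg dh) (dm : ℕ) (s ε : ℝ) :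
    IsCompact (Metric.closedBall (s • Y) (ε * s) ×ˢ Metric.closedBall (0 : Wsp dm) (ε * s)) :=
  (isCompact_closedBall _ _).prod (isCompact_closedBall _ _)

private lemma tl_int_on {g : Cfg dh × Wsp dm → ℝ} (hg : Continuous g) (Y : Cfg dh) (s ε : ℝ) :
    IntegrableOn g (AN.Nb Y dm s ε) ((volume : Measure (Cfg dh)).prod (volume : Measure (Wsp dm))) :=
  (hg.continuousOn.integrableOn_compact (tl_cpt Y dm s ε)).mono_set (tl_Nb_sub Y dm s ε)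

private lemma tl_cont_res (S : Setup d F) (φ : Spl dh dm d) {u : Cfg d → F} (hu : Continuous u) :
    Continuous fun p : Cfg dh × Wsp dm => ‖S.res φ u p.1 p.2‖ ^ 2 := by
  simp only [AN.nrm_res_sq]
  have e1 := AN.nrm_continuous_emb φ
  have e2 : Continuous fun p : Cfg dh × Wsp dm => S.Jd φ p.1 := by
    unfold Setup.Jd
    exact ((AN.nrm_continuous_det S φ).comp continuous_fst).abs
  exact ((hu.comp e1).norm.pow 2).mul e2

private lemma tl_bump (Y : Cfg dh) (dm : ℕ) {ε : ℝ} (hε : 0 < ε) :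
    ∃ (χ : Cfg dh × Wsp dm → ℝ) (B : ℝ), ContDiff ℝ ∞ χ ∧ 0 ≤ B ∧ (∀ p, ‖fderiv ℝ χ p‖ ≤ B) ∧
      (∀ p, 0 ≤ χ p ∧ χ p ≤ 1) ∧ (∀ p : Cfg dh × Wsp dm, ‖p.1 - Y‖ < ε / 2 → ‖p.2‖ < ε / 2 → χ p = 1) ∧
      (∀ p : Cfg dh × Wsp dm, χ p ≠ 0 → ‖p.1 - Y‖ < 3 / 4 * ε ∧ ‖p.2‖ < 3 / 4 * ε) := by
  let f : ContDiffBump ((Y, 0) : Cfg dh × Wsp dm) := ⟨ε / 2, 3 / 4 * ε, by linarith, by linarith⟩
  obtain ⟨B, hB⟩ := (f.contDiff (n := ⊤)).continuous_fderiv (by simp) |>.bounded_above_of_compact_support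
    (f.hasCompactSupport.fderiv ℝ)
  refine ⟨f, max B 0, f.contDiff, le_max_right _ _, fun p => (hB p).trans (le_max_left _ _),
    fun p => ⟨f.nonneg, f.le_one⟩, ?_, ?_⟩
  · intro p h1 h2
    refine f.one_of_mem_closedBall ?_
    rw [mem_closedBall_iff_norm]
    have : p - (Y, 0) = (p.1 - Y, p.2) := by ext1 <;> simp
    rw [this, Prod.norm_mk]
    exact max_le h1.le h2.le
  · intro p hp
    have h3 : p ∈ Function.support f := hp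
    rw [f.support_eq, mem_ball_iff_norm] at h3
    have : p - (Y, 0) = (p.1 - Y, p.2) := by ext1 <;> simp
    rw [this, Prod.norm_mk, max_lt_iff] at h3
    exact h3

private lemma tl_scl_norm {E : Type*} [NormedAddCommGroup E] [NormedSpace ℝ E] {s : ℝ} (hs : 0 < s) (x y : E) (t : ℝ) :
    ‖s⁻¹ • x - y‖ < t ↔ ‖x - s • y‖ < t * s := by
  have h : x - s • y = s • (s⁻¹ • x - y) := by rw [smul_sub, smul_smul, mul_inv_cancel₀ hs.ne', one_smul]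
  rw [h, norm_smul, Real.norm_eq_abs, abs_of_pos hs, mul_comm s]
  exact (mul_lt_mul_iff_left₀ hs).symm

private lemma tl_scl_norm0 {E : Type*} [NormedAddCommGroup E] [NormedSpace ℝ E] {s : ℝ} (hs : 0 < s) (x : E) (t : ℝ) :
    ‖s⁻¹ • x‖ < t ↔ ‖x‖ < t * s := by
  have h := tl_scl_norm hs x 0 t
  simpa using h

private lemma tl_fderiv_scl {χ : Cfg dh × Wsp dm → ℝ} (hχ : ContDiff ℝ ∞ χ) {B : ℝ} (hB : ∀ p, ‖fderiv ℝ χ p‖ ≤ B)
    {s : ℝ} (hs : 0 < s) (p : Cfg dh × Wsp dm) : ‖fderiv ℝ (fun q => χ (s⁻¹ • q)) p‖ ≤ B * s⁻¹ := by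
  have h1 : HasFDerivAt (fun q : Cfg dh × Wsp dm => s⁻¹ • q) (s⁻¹ • ContinuousLinearMap.id ℝ (Cfg dh × Wsp dm)) p :=
    (hasFDerivAt_id p).const_smul s⁻¹
  have h2 : HasFDerivAt χ (fderiv ℝ χ (s⁻¹ • p)) (s⁻¹ • p) :=
    ((hχ.differentiable (by simp)) _).hasFDerivAt
  have h3 := h2.comp p h1
  rw [show (fun q => χ (s⁻¹ • q)) = χ ∘ fun q => s⁻¹ • q from rfl, h3.fderiv]
  rw [ContinuousLinearMap.comp_smul, norm_smul, Real.norm_eq_abs, abs_of_pos (inv_pos.2 hs),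
    ContinuousLinearMap.comp_id, mul_comm]
  exact mul_le_mul_of_nonneg_right (hB _) (inv_pos.2 hs).le

/-- the localised slice function is a slice test function -/
private lemma tl_tst2 (S : Setup d F) (φ : Spl dh dm d) (Y : Cfg dh) {s ε : ℝ} (hs : 0 < s) (hε : 0 < ε)
    {χ : Cfg dh × Wsp dm → ℝ} (hχ : ContDiff ℝ ∞ χ)
    (hsup : ∀ p : Cfg dh × Wsp dm, χ p ≠ 0 → ‖p.1 - Y‖ < 3 / 4 * ε ∧ ‖p.2‖ < 3 / 4 * ε)
    (hdet : ∀ y : Cfg dh, ‖y - s • Y‖ ≤ ε * s → (S.Dy φ 8 y).det ≠ 0) {r : Cfg dh → Wsp dm → F}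
    (hr : AN.Sm S φ r) :
    Tst2 (fun y w => ((χ (s⁻¹ • (y, w)) : ℝ) : ℂ) • r y w) ∧
      Sup2 Y ε s (fun y w => ((χ (s⁻¹ • (y, w)) : ℝ) : ℂ) • r y w) ∧
      ∀ p : Cfg dh × Wsp dm, p ∉ AN.Nb Y dm s ε →
        (fun q : Cfg dh × Wsp dm => ((χ (s⁻¹ • (q.1, q.2)) : ℝ) : ℂ) • r q.1 q.2) =ᶠ[𝓝 p] fun _ => 0 := by
  have hs' : ∀ p : Cfg dh × Wsp dm, χ (s⁻¹ • p) ≠ 0 → ‖p.1 - s • Y‖ < 3 / 4 * ε * s ∧ ‖p.2‖ < 3 / 4 * ε * s := by
    intro p hp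
    obtain ⟨h1, h2⟩ := hsup _ hp
    exact ⟨(tl_scl_norm hs _ _ _).1 h1, (tl_scl_norm0 hs _ _).1 h2⟩
  have hlt : 3 / 4 * ε * s < ε * s := by nlinarith [mul_pos hε hs]
  have hz : ∀ p : Cfg dh × Wsp dm, p ∉ AN.Nb Y dm s ε →
      (fun q : Cfg dh × Wsp dm => ((χ (s⁻¹ • (q.1, q.2)) : ℝ) : ℂ) • r q.1 q.2) =ᶠ[𝓝 p] fun _ => 0 := by
    intro p hp
    have hc : IsClosed {q : Cfg dh × Wsp dm | ‖q.1 - s • Y‖ ≤ 3 / 4 * ε * s ∧ ‖q.2‖ ≤ 3 / 4 * ε * s} :=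
      (isClosed_le (continuous_fst.sub continuous_const).norm continuous_const).inter
        (isClosed_le continuous_snd.norm continuous_const)
    have hp2 : p ∈ {q : Cfg dh × Wsp dm | ‖q.1 - s • Y‖ ≤ 3 / 4 * ε * s ∧ ‖q.2‖ ≤ 3 / 4 * ε * s}ᶜ := by
      intro h
      exact hp ⟨h.1.trans_lt hlt, h.2.trans_lt hlt⟩
    filter_upwards [hc.isOpen_compl.mem_nhds hp2] with q hq
    by_cases h : χ (s⁻¹ • (q.1, q.2)) = 0
    · rw [h]; simp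
    · exact absurd ⟨(hs' (q.1, q.2) h).1.le, (hs' (q.1, q.2) h).2.le⟩ hq
  have hopen : IsOpen {p : Cfg dh × Wsp dm | (S.Dy φ 8 p.1).det ≠ 0} :=
    isOpen_ne.preimage ((AN.nrm_continuous_det S φ).comp continuous_fst)
  refine ⟨⟨?_, ?_⟩, ?_, hz⟩
  · rw [contDiff_iff_contDiffAt]
    intro p
    by_cases hp : p ∈ AN.Nb Y dm s ε
    · have hd : (S.Dy φ 8 p.1).det ≠ 0 := hdet _ hp.1.le
      have h1 : ContDiffAt ℝ ∞ (fun q : Cfg dh × Wsp dm => r q.1 q.2) p := hr.contDiffAt (hopen.mem_nhds hd)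
      have h2 : ContDiff ℝ ∞ (fun q : Cfg dh × Wsp dm => χ (s⁻¹ • (q.1, q.2))) :=
        hχ.comp (contDiff_id.const_smul s⁻¹)
      exact (Complex.ofRealCLM.contDiff.comp h2).contDiffAt.smul h1
    · exact (contDiffAt_const (c := (0 : F))).congr_of_eventuallyEq (hz p hp)
  · refine HasCompactSupport.intro (tl_cpt Y dm s ε) ?_
    intro p hp
    have : p ∉ AN.Nb Y dm s ε := fun h => hp (tl_Nb_sub Y dm s ε h)
    exact (hz p this).eq_of_nhds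
  · intro y w h
    have h1 : χ (s⁻¹ • (y, w)) ≠ 0 := by
      intro h0
      exact h (by show ((χ (s⁻¹ • (y, w)) : ℝ) : ℂ) • r y w = 0; rw [h0]; simp)
    exact ⟨((hs' _ h1).1.trans hlt).le, ((hs' _ h1).2.trans hlt).le⟩

private lemma tl_energy (S : Setup d F) (hdec : AN.DecStmt S) (hfr : AN.FrameStmt S) (φ : Spl dh dm d) (Y : Cfg dh)
    (hsub : S.IsSub φ) (N : Fin 9 → Matrix (Fin 16) (Fin 16) ℂ) (m : ℝ) {s ε B K : ℝ} (hs : 0 < s) (hε : 0 < ε)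
    (hK : 0 ≤ K) {χ : Cfg dh × Wsp dm → ℝ} (hχ : ContDiff ℝ ∞ χ) (hB : ∀ p, ‖fderiv ℝ χ p‖ ≤ B)
    (h01 : ∀ p, 0 ≤ χ p ∧ χ p ≤ 1)
    (hsup : ∀ p : Cfg dh × Wsp dm, χ p ≠ 0 → ‖p.1 - Y‖ < 3 / 4 * ε ∧ ‖p.2‖ < 3 / 4 * ε)
    (hdet : ∀ y : Cfg dh, ‖y - s • Y‖ ≤ ε * s → (S.Dy φ 8 y).det ≠ 0)
    (hcut : ∀ (y : Cfg dh) (w : Wsp dm), ‖y - s • Y‖ < ε * s → ‖w‖ < ε * s →
      ∀ (χ : Cfg dh × Wsp dm → ℝ) (v : Cfg dh → Wsp dm → F), ContDiff ℝ ∞ χ → AN.Sm S φ v → ∀ β,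
        ‖AN.Qs S φ β (fun y' w' => ((χ (y', w') : ℝ) : ℂ) • v y' w') y w -
          ((χ (y, w) : ℝ) : ℂ) • AN.Qs S φ β v y w‖ ≤ K * ‖fderiv ℝ χ (y, w)‖ * ‖v y w‖)
    {u : Cfg d → F} (hu : Setup.Tst u) (hG : ∀ C x, S.G C u x = 0) (hr : AN.Sm S φ (S.res φ u)) (β : Fin 16) :
    ns2 (S.QS φ N m β (fun y w => ((χ (s⁻¹ • (y, w)) : ℝ) : ℂ) • S.res φ u y w)) ≤
      2 * (∫ p in AN.Nb Y dm s ε, ‖S.res φ (qn S N m β u) p.1 p.2‖ ^ 2
        ∂((volume : Measure (Cfg dh)).prod (volume : Measure (Wsp dm)))) +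
      2 * (K * (B * s⁻¹)) ^ 2 * ∫ p in AN.Nb Y dm s ε, ‖S.res φ u p.1 p.2‖ ^ 2
        ∂((volume : Measure (Cfg dh)).prod (volume : Measure (Wsp dm))) := by
  obtain ⟨-, -, hz⟩ := tl_tst2 S φ Y hs hε hχ hsup hdet hr
  set μ := (volume : Measure (Cfg dh)).prod (volume : Measure (Wsp dm)) with hμ
  have hq : Setup.Tst (qn S N m β u) := tst_qn S N m β hu
  have i1 : IntegrableOn (fun p : Cfg dh × Wsp dm => ‖S.res φ (qn S N m β u) p.1 p.2‖ ^ 2) (AN.Nb Y dm s ε) μ :=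
    tl_int_on (tl_cont_res S φ hq.1.continuous) Y s ε
  have i2 : IntegrableOn (fun p : Cfg dh × Wsp dm => ‖S.res φ u p.1 p.2‖ ^ 2) (AN.Nb Y dm s ε) μ :=
    tl_int_on (tl_cont_res S φ hu.1.continuous) Y s ε
  have e1 : ns2 (S.QS φ N m β (fun y w => ((χ (s⁻¹ • (y, w)) : ℝ) : ℂ) • S.res φ u y w)) =
      ∫ p in AN.Nb Y dm s ε, ‖S.QS φ N m β (fun y w => ((χ (s⁻¹ • (y, w)) : ℝ) : ℂ) • S.res φ u y w) p.1 p.2‖ ^ 2 ∂μ := by
    unfold ns2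
    symm
    refine setIntegral_eq_integral_of_forall_compl_eq_zero fun p hp => ?_
    rw [tl_QS_zero S φ N m β (hz p hp), norm_zero, zero_pow two_ne_zero]
  rw [e1, ← integral_const_mul, ← integral_const_mul, ← integral_add (i1.const_mul 2) (i2.const_mul _)]
  refine integral_mono_of_nonneg (Eventually.of_forall fun p => sq_nonneg _)
    ((i1.const_mul 2).add (i2.const_mul _)) ?_
  rw [EventuallyLE, ae_restrict_iff' (tl_meas_Nb Y dm s ε)]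
  refine Eventually.of_forall fun p hp => ?_
  have hχs : ContDiff ℝ ∞ (fun q : Cfg dh × Wsp dm => χ (s⁻¹ • q)) := hχ.comp (contDiff_id.const_smul s⁻¹)
  have hd : (S.Dy φ 8 p.1).det ≠ 0 := hdet _ hp.1.le
  have h1 := hcut p.1 p.2 hp.1 hp.2 (fun q => χ (s⁻¹ • q)) (S.res φ u) hχs hr β
  have h2 := tl_fderiv_scl hχ hB hs p
  have h3 : S.res φ (qn S N m β u) p.1 p.2 = S.QS φ N m β (S.res φ u) p.1 p.2 :=
    ((hfr.2.2 N).2 dh dm φ).2 hsub hdec u hu.1 hG m β p.1 p.2 hd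
  have h4 : S.QS φ N m β (fun y w => ((χ (s⁻¹ • (y, w)) : ℝ) : ℂ) • S.res φ u y w) p.1 p.2 =
      ((χ (s⁻¹ • (p.1, p.2)) : ℝ) : ℂ) • S.QS φ N m β (S.res φ u) p.1 p.2 +
      (AN.Qs S φ β (fun y' w' => ((χ (s⁻¹ • (y', w')) : ℝ) : ℂ) • S.res φ u y' w') p.1 p.2 -
          ((χ (s⁻¹ • (p.1, p.2)) : ℝ) : ℂ) • AN.Qs S φ β (S.res φ u) p.1 p.2) := by
    rw [tl_QS_eq, tl_QS_eq, map_smul, smul_add, smul_comm (m : ℂ)]
    abel
  have h5 : ‖AN.Qs S φ β (fun y' w' => ((χ (s⁻¹ • (y', w')) : ℝ) : ℂ) • S.res φ u y' w') p.1 p.2 -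
          ((χ (s⁻¹ • (p.1, p.2)) : ℝ) : ℂ) • AN.Qs S φ β (S.res φ u) p.1 p.2‖ ≤
        K * (B * s⁻¹) * ‖S.res φ u p.1 p.2‖ :=
    h1.trans (mul_le_mul_of_nonneg_right (mul_le_mul_of_nonneg_left h2 hK) (norm_nonneg _))
  have h6 : ‖((χ (s⁻¹ • (p.1, p.2)) : ℝ) : ℂ) • S.QS φ N m β (S.res φ u) p.1 p.2‖ ≤
      ‖S.QS φ N m β (S.res φ u) p.1 p.2‖ := by
    rw [norm_smul, Complex.norm_real, Real.norm_eq_abs, abs_of_nonneg (h01 _).1]
    exact mul_le_of_le_one_left (norm_nonneg _) (h01 _).2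
  show ‖S.QS φ N m β (fun y w => ((χ (s⁻¹ • (y, w)) : ℝ) : ℂ) • S.res φ u y w) p.1 p.2‖ ^ 2 ≤
    2 * ‖S.res φ (qn S N m β u) p.1 p.2‖ ^ 2 + 2 * (K * (B * s⁻¹)) ^ 2 * ‖S.res φ u p.1 p.2‖ ^ 2
  rw [h4, h3]
  have h7 := norm_add_le (((χ (s⁻¹ • (p.1, p.2)) : ℝ) : ℂ) • S.QS φ N m β (S.res φ u) p.1 p.2)
    (AN.Qs S φ β (fun y' w' => ((χ (s⁻¹ • (y', w')) : ℝ) : ℂ) • S.res φ u y' w') p.1 p.2 -
          ((χ (s⁻¹ • (p.1, p.2)) : ℝ) : ℂ) • AN.Qs S φ β (S.res φ u) p.1 p.2)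
  have h8 := h7.trans (add_le_add h6 h5)
  have h9 := pow_le_pow_left₀ (norm_nonneg _) h8 2
  refine h9.trans ?_
  nlinarith [sq_nonneg (‖S.QS φ N m β (S.res φ u) p.1 p.2‖ - K * (B * s⁻¹) * ‖S.res φ u p.1 p.2‖)]

private lemma tl_int_sq {v : Cfg dh → Wsp dm → F} (hv : Tst2 v) :
    Integrable (fun p : Cfg dh × Wsp dm => ‖v p.1 p.2‖ ^ 2)
      ((volume : Measure (Cfg dh)).prod (volume : Measure (Wsp dm))) := by
  refine Continuous.integrable_of_hasCompactSupport (hv.1.continuous.norm.pow 2) ?_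
  refine hv.2.mono fun p hp => ?_
  intro h
  apply hp
  show ‖v p.1 p.2‖ ^ 2 = 0
  rw [show v p.1 p.2 = 0 from h, norm_zero, zero_pow two_ne_zero]

private lemma tl_ns2_le (S : Setup d F) (φ : Spl dh dm d) (Y : Cfg dh) {s ε : ℝ} {u : Cfg d → F} (hu : Setup.Tst u)
    {v : Cfg dh → Wsp dm → F} (hv : Tst2 v) (hz : ∀ p : Cfg dh × Wsp dm, p ∉ AN.Nb Y dm s ε → v p.1 p.2 = 0)
    (hle : ∀ p : Cfg dh × Wsp dm, ‖v p.1 p.2‖ ≤ ‖S.res φ u p.1 p.2‖) :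
    ns2 v ≤ ∫ p in AN.Nb Y dm s ε, ‖S.res φ u p.1 p.2‖ ^ 2
      ∂((volume : Measure (Cfg dh)).prod (volume : Measure (Wsp dm))) := by
  have i2 : IntegrableOn (fun p : Cfg dh × Wsp dm => ‖S.res φ u p.1 p.2‖ ^ 2) (AN.Nb Y dm s ε)
      ((volume : Measure (Cfg dh)).prod (volume : Measure (Wsp dm))) :=
    tl_int_on (tl_cont_res S φ hu.1.continuous) Y s ε
  have e1 : ns2 v = ∫ p in AN.Nb Y dm s ε, ‖v p.1 p.2‖ ^ 2
      ∂((volume : Measure (Cfg dh)).prod (volume : Measure (Wsp dm))) := by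
    unfold ns2
    symm
    refine setIntegral_eq_integral_of_forall_compl_eq_zero fun p hp => ?_
    rw [hz p hp, norm_zero, zero_pow two_ne_zero]
  rw [e1]
  exact setIntegral_mono (tl_int_sq hv).integrableOn i2 fun p => pow_le_pow_left₀ (norm_nonneg _) (hle p) 2

private lemma tl_ns2_ge (S : Setup d F) (φ : Spl dh dm d) (Y : Cfg dh) {s ε : ℝ} {u : Cfg d → F}
    {v : Cfg dh → Wsp dm → F} (hv : Tst2 v)
    (heq : ∀ p : Cfg dh × Wsp dm, p ∈ AN.Nb Y dm s ε → v p.1 p.2 = S.res φ u p.1 p.2) :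
    (∫ p in AN.Nb Y dm s ε, ‖S.res φ u p.1 p.2‖ ^ 2
      ∂((volume : Measure (Cfg dh)).prod (volume : Measure (Wsp dm)))) ≤ ns2 v := by
  have e2 : (∫ p in AN.Nb Y dm s ε, ‖S.res φ u p.1 p.2‖ ^ 2
      ∂((volume : Measure (Cfg dh)).prod (volume : Measure (Wsp dm)))) =
      ∫ p in AN.Nb Y dm s ε, ‖v p.1 p.2‖ ^ 2
        ∂((volume : Measure (Cfg dh)).prod (volume : Measure (Wsp dm))) :=
    setIntegral_congr_fun (tl_meas_Nb Y dm s ε) fun p hp => by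
      show ‖S.res φ u p.1 p.2‖ ^ 2 = ‖v p.1 p.2‖ ^ 2
      rw [heq p hp]
  rw [e2]
  exact setIntegral_le_integral (tl_int_sq hv) (Eventually.of_forall fun p => sq_nonneg _)

private lemma tl_arith {c c' C0 K B s m n a ES EH E1 X E M bs : ℝ} (hc : 0 < c) (hc' : 0 < c') (hC0 : 0 < C0)
    (hs : 1 ≤ s) (hm : 0 < m) (hm1 : m ≤ 1) (hna : n ≤ a) (hn : 0 ≤ n)
    (hX : X ≤ c' * n) (h1 : EH + E1 ≤ C0 * (ES + (1 / s ^ 2 + m ^ 2 / s) * n)) (hE1 : 0 ≤ E1)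
    (h6 : m ^ 2 * s ^ 2 * n ≤ C0 * (EH + m * n))
    (hES : ES ≤ 2 * bs + 16 * (2 * (K * (B * s⁻¹)) ^ 2 * a)) (haM : c * a ≤ M) (hbE : c * bs ≤ E)
    (hE : 0 ≤ E) :
    m ^ 2 * s ^ 2 * X ≤ (c' * C0 * (C0 * (3 + 32 * (K * B) ^ 2) + 1) / c) * (E + (1 / s ^ 2 + m) * M) := by
  have hs0 : 0 < s := by linarith
  have ha : 0 ≤ a := hn.trans hna
  have e0 : 0 < 1 / s ^ 2 := by positivity
  have e1 : m ^ 2 / s ≤ m := by
    rw [div_le_iff₀ hs0]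
    nlinarith [mul_nonneg hm.le (sub_nonneg.2 hm1), mul_nonneg hm.le (sub_nonneg.2 hs)]
  have e2 : n ≤ M / c := hna.trans ((le_div_iff₀ hc).2 (by linarith))
  have e3 : a ≤ M / c := (le_div_iff₀ hc).2 (by linarith)
  have e4 : bs ≤ E / c := (le_div_iff₀ hc).2 (by linarith)
  have hMc : 0 ≤ M / c := ha.trans e3
  have e5 : (K * (B * s⁻¹)) ^ 2 = (K * B) ^ 2 * (1 / s ^ 2) := by
    field_simp
  have e6 : ES ≤ 2 * (E / c) + 32 * (K * B) ^ 2 * ((1 / s ^ 2 + m) * (M / c)) := by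
    refine hES.trans ?_
    rw [e5]
    have h7 : (K * B) ^ 2 * (1 / s ^ 2) * a ≤ (K * B) ^ 2 * ((1 / s ^ 2 + m) * (M / c)) := by
      rw [mul_assoc]
      refine mul_le_mul_of_nonneg_left ?_ (sq_nonneg _)
      exact mul_le_mul (by linarith) e3 ha (by positivity)
    nlinarith
  have e7 : (1 / s ^ 2 + m ^ 2 / s) * n ≤ (1 / s ^ 2 + m) * (M / c) :=
    mul_le_mul (by linarith) e2 hn (by positivity)
  have e8 : m * n ≤ (1 / s ^ 2 + m) * (M / c) :=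
    mul_le_mul (by linarith) e2 hn (by positivity)
  set P := (1 / s ^ 2 + m) * (M / c) with hP
  have hP0 : 0 ≤ P := mul_nonneg (by positivity) hMc
  have e9 : m ^ 2 * s ^ 2 * n ≤ C0 * (C0 * (2 * (E / c) + (32 * (K * B) ^ 2 + 1) * P) + P) := by
    refine h6.trans (mul_le_mul_of_nonneg_left ?_ hC0.le)
    have h8 : C0 * (ES + (1 / s ^ 2 + m ^ 2 / s) * n) ≤ C0 * (2 * (E / c) + (32 * (K * B) ^ 2 + 1) * P) :=
      mul_le_mul_of_nonneg_left (by linarith) hC0.le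
    linarith
  have hEc : 0 ≤ E / c := div_nonneg hE hc.le
  have e10 : m ^ 2 * s ^ 2 * X ≤ c' * (m ^ 2 * s ^ 2 * n) := by
    have : m ^ 2 * s ^ 2 * X ≤ m ^ 2 * s ^ 2 * (c' * n) := mul_le_mul_of_nonneg_left hX (by positivity)
    linarith
  refine e10.trans ((mul_le_mul_of_nonneg_left e9 hc'.le).trans ?_)
  have e11 : (c' * C0 * (C0 * (3 + 32 * (K * B) ^ 2) + 1) / c) * (E + (1 / s ^ 2 + m) * M) =
      c' * (C0 * ((C0 * (3 + 32 * (K * B) ^ 2) + 1) * (E / c + P))) := by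
    rw [hP]
    field_simp
  rw [e11]
  refine mul_le_mul_of_nonneg_left (mul_le_mul_of_nonneg_left ?_ hC0.le) hc'.le
  have e12 : 0 ≤ C0 * ((1 + 32 * (K * B) ^ 2) * (E / c)) := by positivity
  have e13 : 0 ≤ C0 * (2 * P) := by positivity
  nlinarith

/-- local estimate in one tube, arbitrary frame and admissible mass matrices -/
theorem tub_loc (S : Setup d F) (hfd : FiniteDimensional ℂ F) (hin : Inp S) (φ : Spl dh dm d) (Y : Cfg dh)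
    (hY : AN.Std S φ Y) (hdm : 0 < dm) (N : Fin 9 → Matrix (Fin 16) (Fin 16) ℂ) (hN : S.IsMass N) (σ : ℝ)
    (hσ : 0 < σ) :
    ∃ δ R₁ C : ℝ, 0 < δ ∧ δ ≤ σ ∧ 1 ≤ R₁ ∧ 0 ≤ C ∧ ∀ s : ℝ, R₁ ≤ s → ∀ m : ℝ, 0 < m → m ≤ 1 → ∀ u : Cfg d → F,
      Setup.Tst u → (∀ C x, S.G C u x = 0) → (∀ β C x, S.G C (qn S N m β u) x = 0) →
      m ^ 2 * s ^ 2 * AD.mas u (Metric.ball (s • emb φ Y 0) (δ * s)) ≤
        C * ((∑ β, ∫ x in AD.shl d ((‖Y‖ - σ) * s) ((‖Y‖ + σ) * s), ‖qn S N m β u x‖ ^ 2) +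
          (1 / s ^ 2 + m) * AD.mas u (AD.shl d ((‖Y‖ - σ) * s) ((‖Y‖ + σ) * s))) := by
  obtain ⟨εT, ρ, hεT, hρ, hT⟩ := hin.tube dh dm φ Y hY
  obtain ⟨εB, CB, hεB, hCB, hBd⟩ := hin.bd dh dm φ Y hY
  obtain ⟨εK, K, hεK, hK, hCut⟩ := hin.cut dh dm φ Y hY
  obtain ⟨Om, ε0, R0, C0, -, -, hε0, hR0, hC0, hOut⟩ := hin.out dh dm φ hfd N hN Y hY
  obtain ⟨ε, hε, h1, h2, h3, h4, h5⟩ : ∃ ε : ℝ, 0 < ε ∧ ε ≤ εT ∧ ε ≤ εB ∧ ε ≤ εK ∧ ε ≤ ε0 ∧ ε ≤ σ / 2 := by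
    refine ⟨min (min εT εB) (min (min εK ε0) (σ / 2)), ?_, ?_, ?_, ?_, ?_, ?_⟩
    · have : 0 < σ / 2 := by linarith
      positivity
    · exact (min_le_left _ _).trans (min_le_left _ _)
    · exact (min_le_left _ _).trans (min_le_right _ _)
    · exact (min_le_right _ _).trans ((min_le_left _ _).trans (min_le_left _ _))
    · exact (min_le_right _ _).trans ((min_le_left _ _).trans (min_le_right _ _))
    · exact (min_le_right _ _).trans (min_le_right _ _)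
  obtain ⟨c', δ, hc', hδ, hT1⟩ := hT (ε / 2) ρ (by linarith) (by linarith) hρ le_rfl
  obtain ⟨c, δ2, hc, hδ2, hT2⟩ := hT ε ρ hε h1 hρ le_rfl
  obtain ⟨χ, B, hχ, hB0, hB, h01, hone, hsup⟩ := tl_bump Y dm hε
  refine ⟨min δ σ, R0, c' * C0 * (C0 * (3 + 32 * (K * B) ^ 2) + 1) / c, lt_min hδ hσ, min_le_right _ _, hR0,
    by positivity, ?_⟩
  intro s hs m hm hm1 u hu hG hGq
  have hs1 : 1 ≤ s := hR0.trans hs
  have hs0 : 0 < s := by linarith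
  obtain ⟨-, hball, -, hint1⟩ := hT1 s hs0
  obtain ⟨hop, -, -, hint2⟩ := hT2 s hs0
  have hdet : ∀ y : Cfg dh, ‖y - s • Y‖ ≤ ε * s → (S.Dy φ 8 y).det ≠ 0 := fun y hy =>
    (hBd s y hs0 (hy.trans (mul_le_mul_of_nonneg_right h2 hs0.le))).1
  have hcut : ∀ (y : Cfg dh) (w : Wsp dm), ‖y - s • Y‖ < ε * s → ‖w‖ < ε * s →
      ∀ (χ : Cfg dh × Wsp dm → ℝ) (v : Cfg dh → Wsp dm → F), ContDiff ℝ ∞ χ → AN.Sm S φ v → ∀ β,
        ‖AN.Qs S φ β (fun y' w' => ((χ (y', w') : ℝ) : ℂ) • v y' w') y w -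
          ((χ (y, w) : ℝ) : ℂ) • AN.Qs S φ β v y w‖ ≤ K * ‖fderiv ℝ χ (y, w)‖ * ‖v y w‖ := fun y w hy hw =>
    hCut s y w hs0 (hy.trans_le (mul_le_mul_of_nonneg_right h3 hs0.le))
      (hw.trans_le (mul_le_mul_of_nonneg_right h3 hs0.le))
  have hr : AN.Sm S φ (S.res φ u) := (hin.gh dh dm φ hY.sub u hu.1).1
  obtain ⟨ht, hsu, hz⟩ := tl_tst2 S φ Y hs0 hε hχ hsup hdet hr
  set v : Cfg dh → Wsp dm → F := fun y w => ((χ (s⁻¹ • (y, w)) : ℝ) : ℂ) • S.res φ u y w with hv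
  have hle : ∀ p : Cfg dh × Wsp dm, ‖v p.1 p.2‖ ≤ ‖S.res φ u p.1 p.2‖ := by
    intro p
    rw [hv]
    simp only
    rw [norm_smul, Complex.norm_real, Real.norm_eq_abs, abs_of_nonneg (h01 _).1]
    exact mul_le_of_le_one_left (norm_nonneg _) (h01 _).2
  have hna := tl_ns2_le S φ Y (s := s) (ε := ε) hu ht (fun p hp => (hz p hp).eq_of_nhds) hle
  have hge := tl_ns2_ge S φ Y (s := s) (ε := ε / 2) (u := u) ht (by
    intro p hp
    have h1 : χ (s⁻¹ • (p.1, p.2)) = 1 :=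
      hone _ ((tl_scl_norm hs0 _ _ _).2 hp.1) ((tl_scl_norm0 hs0 _ _).2 hp.2)
    rw [hv]
    simp only
    rw [h1, Complex.ofReal_one, one_smul])
  have hO := hOut ε hε h4 s hs m hm.le hm1 v ht hsu
  have hES : S.ES φ N m v ≤
      2 * (∑ β, ∫ p in AN.Nb Y dm s ε, ‖S.res φ (qn S N m β u) p.1 p.2‖ ^ 2
        ∂((volume : Measure (Cfg dh)).prod (volume : Measure (Wsp dm)))) +
      16 * (2 * (K * (B * s⁻¹)) ^ 2 * ∫ p in AN.Nb Y dm s ε, ‖S.res φ u p.1 p.2‖ ^ 2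
        ∂((volume : Measure (Cfg dh)).prod (volume : Measure (Wsp dm)))) := by
    unfold Setup.ES
    refine (Finset.sum_le_sum fun β _ => tl_energy S hin.dec hin.frame φ Y hY.sub N m hs0 hε hK.le hχ hB h01 hsup
      hdet hcut hu hG hr β).trans (le_of_eq ?_)
    rw [Finset.sum_add_distrib, ← Finset.mul_sum]
    simp
  have hsub := tl_tube_shl S φ Y (ρ := ρ) hs0 hε (show 2 * ε ≤ σ by linarith)
  have hmas : ∀ f : Cfg d → F, Setup.Tst f → (∀ C x, S.G C f x = 0) →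
      c * (∫ p in AN.Nb Y dm s ε, ‖S.res φ f p.1 p.2‖ ^ 2
        ∂((volume : Measure (Cfg dh)).prod (volume : Measure (Wsp dm)))) ≤
      ∫ x in AD.shl d ((‖Y‖ - σ) * s) ((‖Y‖ + σ) * s), ‖f x‖ ^ 2 := by
    intro f hf hGf
    rw [← AN.nrm_int S φ Y s ε ρ c hc hint2 hf hGf]
    exact setIntegral_mono_set hf.norm_sq_int.integrableOn (Eventually.of_forall fun x => sq_nonneg _)
      (LE.le.eventuallyLE hsub)
  have hbE : c * (∑ β, ∫ p in AN.Nb Y dm s ε, ‖S.res φ (qn S N m β u) p.1 p.2‖ ^ 2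
        ∂((volume : Measure (Cfg dh)).prod (volume : Measure (Wsp dm)))) ≤
      ∑ β, ∫ x in AD.shl d ((‖Y‖ - σ) * s) ((‖Y‖ + σ) * s), ‖qn S N m β u x‖ ^ 2 := by
    rw [Finset.mul_sum]
    exact Finset.sum_le_sum fun β _ => hmas _ (tst_qn S N m β hu) (hGq β)
  have hX : AD.mas u (Metric.ball (s • emb φ Y 0) (min δ σ * s)) ≤ c' * ns2 v := by
    have e1 : AD.mas u (Metric.ball (s • emb φ Y 0) (min δ σ * s)) ≤ ∫ x in AN.Tube S φ Y s (ε / 2) ρ, ‖u x‖ ^ 2 := by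
      refine setIntegral_mono_set hu.norm_sq_int.integrableOn (Eventually.of_forall fun x => sq_nonneg _)
        (LE.le.eventuallyLE ?_)
      exact (Metric.ball_subset_ball (mul_le_mul_of_nonneg_right (min_le_left _ _) hs0.le)).trans hball
    refine e1.trans ?_
    rw [AN.nrm_int S φ Y s (ε / 2) ρ c' hc' hint1 hu hG]
    exact mul_le_mul_of_nonneg_left hge hc'.le
  refine tl_arith hc hc' hC0 hs1 hm hm1 hna (integral_nonneg fun p => sq_nonneg _) hX hO.1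
    (Finset.sum_nonneg fun β _ => integral_nonneg fun p => sq_nonneg _) (hO.2.2.2.2.2 hdm) hES (hmas u hu hG) hbE
    (Finset.sum_nonneg fun β _ => integral_nonneg fun p => sq_nonneg _)

end Vale.Agent.P353.Z.AT
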